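import Crest.Agent.N228.J.Sol

-- ▼ part N228/I/Cut
section

/-! # Row 228, instance of A* (helper72): cutting off a solution which is close to a constant -/

set_option autoImplicit false
set_option linter.unusedSectionVars false
open Set Filter Topology Function
open scoped ContDiff
open Crest.Agent.N222 Crest.Agent.N228.J

noncomputable section

namespace Crest.Agent.N228.I

variable {d : ℕ} {ι : Type} [Fintype ι] [DecidableEq ι] {X : Type} [TopologicalSpace X]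
  {M : Imm d ι X} {b : ι → X → ℝ} {P : Type} [NormedAddCommGroup P] [NormedSpace ℝ P]
  {Φ : P × ℝ × ℝ → ℝ} {I : Set ℝ} {C : Set P} {c : X → P}

/-- the defect of the equation -/
def dft (M : Imm d ι X) (b : ι → X → ℝ) (Φ : P × ℝ × ℝ → ℝ) (c : X → P) (u : X → ℝ) (p : X) : ℝ :=
  A.ww M.pre u p * (QQ M b u p - Φ (c p, u p, M.vv u p))

theorem dft_congr {u w : X → ℝ} {c' : X → P} {p : X} (h : u =ᶠ[𝓝 p] w) (hc : c p = c' p) :
    dft M b Φ c u p = dft M b Φ c' w p := by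
  have e : M.pre.gam u u p = M.pre.gam w w p := by simp only [Imm.gam_apply, Imm.D_congr h]
  simp only [dft, A.ww, Imm.vv, e, QQ_congr h, hc, h.self_of_nhds]

theorem dft_const {s : ℝ} {p : X} (h : Φ (c p, s, 1) = 0) : dft M b Φ c (fun _ => s) p = 0 := by
  rw [dft, QQ_const, vv_const, h, sub_zero, mul_zero]

theorem mem_cut (hI : I.OrdConnected) {s t x : ℝ} (hs : s ∈ I) (ht : t ∈ I) (h0 : 0 ≤ x)
    (h1 : x ≤ 1) : s + x * (t - s) ∈ I := by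
  have := hI.convex hs ht (sub_nonneg.2 h1) h0 (sub_add_cancel 1 x)
  rwa [show (1 - x) • s + x • t = s + x * (t - s) by simp only [smul_eq_mul]; ring] at this

theorem cut_small [FiniteDimensional ℝ P] {U K : Set X} (hU : IsOpen U) (hb : ∀ a, M.Sm (b a))
    (hΦ : J.Good Φ I C) (hc : M.Sm c) (hC : ∀ p ∈ U, c p ∈ C) {s : ℝ} (hs : s ∈ I)
    (h0 : ∀ p ∈ U, Φ (c p, s, 1) = 0) {χ : X → ℝ} (hχ : M.Sm χ) (h01 : ∀ p, 0 ≤ χ p ∧ χ p ≤ 1)
    (hK : IsCompact K) (hKU : K ⊆ U) {ε : ℝ} (hε : 0 < ε) :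
    ∃ δ > 0, ∀ u, M.Sm u →
      (∀ p ∈ U, u p ∈ I ∧ QQ M b u p = Φ (c p, u p, M.vv u p) ∧ |u p - s| < δ) →
      ∀ p ∈ K, |dft M b Φ c (fun q => s + χ q * (u q - s)) p| ≤ ε := by
  let T := {u : X → ℝ // M.Sm u ∧ ∀ p ∈ U, u p ∈ I ∧ QQ M b u p = Φ (c p, u p, M.vv u p)}
  let t0 : T := ⟨fun _ => s, Imm.sm_const s, fun p hp => ⟨hs, by rw [QQ_const, vv_const, h0 p hp]⟩⟩
  have h1 : JC M.atl U fun t : Un U (Subtype.val : T → _) => (t : T).1 :=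
    loc rfl hU hb hΦ (((M.smOn_univ rfl).2 hc).mono (subset_univ _))
      (fun t => ((M.smOn_univ rfl).2 t.2.1).mono (subset_univ _))
      (fun t p hp => ⟨hC p hp, (t.2.2 p hp).1⟩) fun t p hp => (t.2.2 p hp).2
  have h2 := (JC.const hU s).add ((JC.of_sm rfl hU hχ).mul (h1.sub (JC.const hU s)))
  have hF : Fm M.atl U fun _ : Un U (Subtype.val : T → _) => M := Fm.fixed M rfl hU
  have h3 := (hF.pj.ww h2).mul ((hF.pj.hb (Y := fun _ => b) (fun a => JC.of_sm rfl hU (hb a)) h2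
    (hF.vv h2)).sub (((JC.of_sm rfl hU hc).prodMk (h2.prodMk (hF.vv h2))).comp_on hΦ.isOpen' hΦ.sm
      fun t p hp => ⟨mem_univ _, mem_cut hΦ.ord hs (t.2.2 p hp).1 (h01 p).1 (h01 p).2, mem_univ _⟩))
  obtain ⟨δ, hδ, h⟩ := Un.eventually_iff.1 (h3.eventually_norm hK hKU t0 hε)
  refine ⟨δ, hδ, fun u hu h4 p hp => ?_⟩
  have h5 := h ⟨u, hu, fun p hp => ⟨(h4 p hp).1, (h4 p hp).2.1⟩⟩ (fun p hp => (h4 p hp).2.2) p hp
  have e : dft M b Φ c (fun q => s + χ q * (s - s)) p = 0 := by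
    simp only [sub_self, mul_zero, add_zero]; exact dft_const (h0 p (hKU hp))
  change ‖dft M b Φ c _ p - dft M b Φ c (fun q => s + χ q * (s - s)) p‖ < ε at h5
  rw [e, sub_zero] at h5
  exact h5.le

end Crest.Agent.N228.I

end
end

-- ▼ part N228/I/Wall

/-! # Row 228, instance of A* (helper72): the wall profile and the localised solution -/

set_option autoImplicit false
set_option linter.unusedSectionVars false
open Set Filter Topology Function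
open scoped ContDiff
open Crest.Agent.N222 Crest.Agent.N228.J Crest.Agent.N222.A

noncomputable section

namespace Crest.Agent.N228.I

/-- an affine cut-off -/
def ct (a c t : ℝ) : ℝ := cut (a * t + c)

theorem contDiff_ct (a c : ℝ) : ContDiff ℝ ∞ (ct a c) :=
  Real.smoothTransition.contDiff.comp (by fun_prop)

theorem ct_nonneg (a c t : ℝ) : 0 ≤ ct a c t := Real.smoothTransition.nonneg _

theorem ct_le_one (a c t : ℝ) : ct a c t ≤ 1 := Real.smoothTransition.le_one _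

theorem ct_zero {a c t : ℝ} (h : a * t + c ≤ 0) : ct a c t = 0 :=
  Real.smoothTransition.zero_of_nonpos h

theorem ct_one {a c t : ℝ} (h : 1 ≤ a * t + c) : ct a c t = 1 :=
  Real.smoothTransition.one_of_one_le h

theorem hasDerivAt_ct (a c t : ℝ) : ∃ e, HasDerivAt (ct a c) e t ∧ |e| ≤ |a| * cc := by
  have h1 : HasDerivAt cut (deriv cut (a * t + c)) (a * t + c) :=
    ((Real.smoothTransition.contDiff (n := 1)).differentiable one_ne_zero _).hasDerivAt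
  refine ⟨_, h1.comp t (((hasDerivAt_id' t).const_mul a).add_const c), ?_⟩
  rw [mul_one, abs_mul, mul_comm]
  exact mul_le_mul_of_nonneg_left (abs_deriv_cut_le _) (abs_nonneg a)

/-- the reciprocal square root of the wall -/
def wy (δ t : ℝ) : ℝ := 1 - (1 - δ) * (ct (8 / 3) (-1 / 2) t * ct (-(8 / 3)) (8 / 3) t)

/-- the wall -/
def wq (δ t : ℝ) : ℝ := (wy δ t)⁻¹ ^ 2

section W

variable {δ t : ℝ}

theorem wy_mem (h0 : 0 < δ) (h1 : δ ≤ 1) (t : ℝ) : 0 < wy δ t ∧ wy δ t ≤ 1 := by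
  have a0 := mul_nonneg (ct_nonneg (8 / 3) (-1 / 2) t) (ct_nonneg (-(8 / 3)) (8 / 3) t)
  have a1 := mul_le_one₀ (ct_le_one (8 / 3) (-1 / 2) t) (ct_nonneg (-(8 / 3)) (8 / 3) t)
    (ct_le_one (-(8 / 3)) (8 / 3) t)
  unfold wy
  constructor <;> nlinarith

theorem contDiff_wq (h0 : 0 < δ) (h1 : δ ≤ 1) : ContDiff ℝ ∞ (wq δ) :=
  ((contDiff_const.sub (contDiff_const.mul ((contDiff_ct _ _).mul (contDiff_ct _ _)))).inv
    fun t => (wy_mem h0 h1 t).1.ne').pow 2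

theorem one_le_wq (h0 : 0 < δ) (h1 : δ ≤ 1) (t : ℝ) : 1 ≤ wq δ t :=
  one_le_pow₀ (one_le_inv₀ (wy_mem h0 h1 t).1 |>.2 (wy_mem h0 h1 t).2)

theorem wq_out (h : t ≤ 3 / 16 ∨ 1 ≤ t) : wq δ t = 1 := by
  rcases h with h | h
  · rw [wq, wy, ct_zero (a := 8 / 3) (by linarith)]; simp
  · rw [wq, wy, ct_zero (a := -(8 / 3)) (by linarith)]; simp

theorem wq_top (h : 9 / 16 ≤ t) (h' : t ≤ 5 / 8) : wq δ t = δ⁻¹ ^ 2 := by
  rw [wq, wy, ct_one (by linarith), ct_one (by linarith)]; simp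

theorem hasDerivAt_wq (h0 : 0 < δ) (h1 : δ ≤ 1) (t : ℝ) :
    ∃ e, HasDerivAt (wq δ) e t ∧ e ^ 2 ≤ (32 / 3 * cc) ^ 2 * wq δ t ^ 3 := by
  obtain ⟨e1, d1, b1⟩ := hasDerivAt_ct (8 / 3) (-1 / 2) t
  obtain ⟨e2, d2, b2⟩ := hasDerivAt_ct (-(8 / 3)) (8 / 3) t
  have hy := (wy_mem h0 h1 t).1
  have d3 : HasDerivAt (wy δ)
      (-((1 - δ) * (e1 * ct (-(8 / 3)) (8 / 3) t + ct (8 / 3) (-1 / 2) t * e2))) t :=
    ((d1.mul d2).const_mul (1 - δ)).const_sub 1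
  refine ⟨_, (d3.inv hy.ne').pow 2, ?_⟩
  set r := (1 - δ) * (e1 * ct (-(8 / 3)) (8 / 3) t + ct (8 / 3) (-1 / 2) t * e2)
  have hr : |r| ≤ 16 / 3 * cc := by
    rw [abs_neg] at b2
    rw [abs_of_pos (by norm_num : (0 : ℝ) < 8 / 3)] at b1 b2
    have a1 : |e1 * ct (-(8 / 3)) (8 / 3) t| ≤ 8 / 3 * cc := by
      rw [abs_mul, abs_of_nonneg (ct_nonneg _ _ _)]
      exact (mul_le_of_le_one_right (abs_nonneg _) (ct_le_one _ _ _)).trans b1
    have a2 : |ct (8 / 3) (-1 / 2) t * e2| ≤ 8 / 3 * cc := by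
      rw [abs_mul, abs_of_nonneg (ct_nonneg _ _ _)]
      exact (mul_le_of_le_one_left (abs_nonneg _) (ct_le_one _ _ _)).trans b2
    rw [abs_mul, abs_of_nonneg (sub_nonneg.2 h1)]
    exact (mul_le_of_le_one_left (abs_nonneg _) (by linarith)).trans
      ((abs_add_le _ _).trans (by linarith))
  have h2 : r ^ 2 ≤ (16 / 3 * cc) ^ 2 := sq_le_sq' (abs_le.1 hr).1 (abs_le.1 hr).2
  have e : (((2 : ℕ) : ℝ) * (wy δ)⁻¹ t ^ (2 - 1) * (- -r / wy δ t ^ 2)) ^ 2 =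
      4 * r ^ 2 * wq δ t ^ 3 := by
    simp only [wq, Pi.inv_apply, Nat.cast_ofNat, Nat.add_one_sub_one, pow_one]; field_simp; ring
  rw [e]
  exact mul_le_mul_of_nonneg_right (by linarith) (pow_nonneg (sq_nonneg _) 3)

theorem exists_wq {m C : ℝ} (hm : 0 < m) : ∃ δ, 0 < δ ∧ δ ≤ 1 ∧ C ≤ m * δ⁻¹ ^ 2 := by
  refine ⟨(max 1 (C / m))⁻¹, by positivity, inv_le_one_of_one_le₀ (le_max_left _ _), ?_⟩
  rw [inv_inv, ← div_le_iff₀' hm]
  exact (le_max_right _ _).trans (le_self_pow₀ (le_max_left _ _) two_ne_zero)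

end W

variable {d : ℕ} {ι : Type} [Fintype ι] [DecidableEq ι] {X : Type} [TopologicalSpace X]
  {M : Imm d ι X} {b : ι → X → ℝ} {θ : X → ℝ}

theorem isCompact_lev (hθ : M.Sm θ) (hc : IsCompact {p | 0 ≤ θ p}) {s : ℝ} (hs : 0 ≤ s) (t : ℝ) :
    IsCompact {p | s ≤ θ p ∧ θ p ≤ t} :=
  hc.of_isClosed_subset ((isClosed_le continuous_const hθ.continuous).inter
    (isClosed_le hθ.continuous continuous_const)) fun _ hp => hs.trans hp.1

theorem ev_lt (hθ : M.Sm θ) {p : X} {s : ℝ} (h : θ p < s) : ∀ᶠ q in 𝓝 p, θ q < s :=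
  hθ.continuous.continuousAt.eventually_lt continuousAt_const h

theorem ev_gt (hθ : M.Sm θ) {p : X} {s : ℝ} (h : s < θ p) : ∀ᶠ q in 𝓝 p, s < θ q :=
  continuousAt_const.eventually_lt hθ.continuous.continuousAt h

/-- a continuous function which vanishes off a compact set is bounded -/
theorem exists_bd (hc : IsCompact {p | 0 ≤ θ p}) {f : X → ℝ} (hf : Continuous f)
    (h : ∀ p, θ p < 0 → f p = 0) : ∃ C, 0 < C ∧ ∀ p, |f p| ≤ C := by
  obtain ⟨C, hC⟩ := hc.exists_bound_of_continuousOn hf.continuousOn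
  refine ⟨max C 1, lt_max_of_lt_right one_pos, fun p => ?_⟩
  rcases le_or_gt 0 (θ p) with hp | hp
  · exact (hC p hp).trans (le_max_left _ _)
  · rw [h p hp, abs_zero]; positivity

theorem exists_QQ_bd (hb : ∀ a, M.Sm (b a)) (hθ : M.Sm θ) (hc : IsCompact {p | 0 ≤ θ p})
    {w : X → ℝ} (hw : M.Sm w) {s : ℝ} (h : ∀ p, θ p < 0 → w p = s) :
    ∃ C, 0 < C ∧ ∀ p, |QQ M b w p| ≤ C :=
  exists_bd hc (sm_QQ hb hw).continuous fun p hp => by
    rw [QQ_congr (w := fun _ => s) ((ev_lt hθ hp).mono h), QQ_const]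

theorem gam_ev {w : X → ℝ} {p : X} {s : ℝ} (h : ∀ᶠ q in 𝓝 p, w q = s) (f : X → ℝ) :
    M.pre.gam w f p = 0 := by
  simp only [Imm.gam_apply, Imm.D_congr (g := fun _ => s) h, Imm.D_const, zero_mul,
    Finset.sum_const_zero]



theorem gam_comp_self {w : X → ℝ} (hw : M.Sm w) {g : ℝ → ℝ} {e : ℝ} {p : X}
    (hg : HasDerivAt g e (w p)) :
    M.pre.gam (fun q => g (w q)) (fun q => g (w q)) p = e ^ 2 * M.pre.gam w w p := by
  simp only [Imm.gam_apply, Imm.D_comp (hw.diffAt p) hg, Finset.mul_sum]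
  exact Finset.sum_congr rfl fun _ _ => by ring

variable {P : Type} [NormedAddCommGroup P] [NormedSpace ℝ P] {Φ : P × ℝ × ℝ → ℝ} {I : Set ℝ}
  {C : Set P}

theorem sup_ev (hb : ∀ a, M.Sm (b a)) {c : X → P} {w : X → ℝ} {p : X} {s : ℝ}
    (h : ∀ᶠ q in 𝓝 p, w q = s) (h0 : 0 ≤ Φ (c p, s, 1)) : Sup M b Φ c w p :=
  (sup_const hb h0).congr (h.mono fun _ hq => hq.symm)

theorem sub_ev (hb : ∀ a, M.Sm (b a)) {c : X → P} {w : X → ℝ} {p : X} {s : ℝ}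
    (h : ∀ᶠ q in 𝓝 p, w q = s) (h0 : Φ (c p, s, 1) ≤ 0) : Sub M b Φ c w p :=
  (sub_const hb h0).congr (h.mono fun _ hq => hq.symm)

/-- the cut-off on one side `V` -/
theorem loc_on [FiniteDimensional ℝ P] (hb : ∀ a, M.Sm (b a)) (hΦ : J.Good Φ I C) (hθ : M.Sm θ)
    {V : Set X} (hV : IsOpen V) (hK : IsCompact ({p | 1 / 16 ≤ θ p ∧ θ p ≤ 1 / 8} ∩ V))
    {c0 : X → P} (h1 : M.Sm c0) {s : ℝ} (hs : s ∈ I)
    (h2 : ∀ p ∈ V, θ p < 3 / 16 → c0 p ∈ C ∧ Φ (c0 p, s, 1) = 0) {ε : ℝ} (hε : 0 < ε) :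
    ∃ δ > 0, ∀ (c : X → P) (u w : X → ℝ), M.Sm u → (∀ p ∈ V, θ p < 3 / 16 → u p ∈ I ∧
      QQ M b u p = Φ (c p, u p, M.vv u p) ∧ c p = c0 p ∧ |u p - s| < δ ∧
      w p = s + ct 16 (-1) (θ p) * (u p - s)) → ∀ p ∈ V, θ p ≤ 1 / 8 → |dft M b Φ c w p| ≤ ε := by
  obtain ⟨δ, hδ, h⟩ := cut_small (U := V ∩ {p | θ p < 3 / 16})
    (hV.inter (isOpen_lt hθ.continuous continuous_const)) hb hΦ h1 (fun p hp => (h2 p hp.1 hp.2).1)
    hs (fun p hp => (h2 p hp.1 hp.2).2) (hθ.comp (contDiff_ct 16 (-1)))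
    (fun p => ⟨ct_nonneg _ _ _, ct_le_one _ _ _⟩) hK
    (fun p hp => ⟨hp.2, hp.1.2.trans_lt (by norm_num)⟩) hε
  refine ⟨δ, hδ, fun c u w hu h3 p hp h6 => ?_⟩
  have h7 : θ p < 3 / 16 := by linarith
  rw [dft_congr (((ev_lt hθ h7).and (hV.mem_nhds hp)).mono fun q hq => (h3 q hq.2 hq.1).2.2.2.2)
    (h3 p hp h7).2.2.1]
  rcases lt_or_ge (θ p) (1 / 16) with h5 | h5
  · rw [dft_congr (w := fun _ => s) ((ev_lt hθ h5).mono fun q hq => by
      simp only [ct_zero (a := 16) (c := -1) (t := θ q) (by linarith), zero_mul, add_zero]) rfl,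
      dft_const (h2 p hp h7).2, abs_zero]
    exact hε.le
  · exact h u hu (fun q hq => ⟨(h3 q hq.1 hq.2).1, (h3 q hq.1 hq.2).2.2.1 ▸ (h3 q hq.1 hq.2).2.1,
      (h3 q hq.1 hq.2).2.2.2.1⟩) p ⟨⟨h5, h6⟩, hp⟩

theorem dft_core (hθ : M.Sm θ) {c : X → P} {u s : X → ℝ} {p : X} (h6 : 1 / 8 < θ p)
    (h : QQ M b u p = Φ (c p, u p, M.vv u p)) :
    dft M b Φ c (fun q => s q + ct 16 (-1) (θ q) * (u q - s q)) p = 0 := by
  rw [dft_congr (w := u) ((ev_gt hθ h6).mono fun q hq => by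
    simp only [ct_one (a := 16) (c := -1) (t := θ q) (by linarith), one_mul, add_sub_cancel])
    rfl, dft, h, sub_self, mul_zero]

/-- **the localised solution** -/
theorem loc_sol [FiniteDimensional ℝ P] (hb : ∀ a, M.Sm (b a)) (hΦ : J.Good Φ I C) (hθ : M.Sm θ)
    (hc : IsCompact {p | 0 ≤ θ p}) {c0 : X → P} (h1 : M.Sm c0) {s : ℝ} (hs : s ∈ I)
    (h2 : ∀ p, θ p < 3 / 16 → c0 p ∈ C ∧ Φ (c0 p, s, 1) = 0) {ε : ℝ} (hε : 0 < ε) :
    ∃ δ > 0, ∀ (c : X → P) (u : X → ℝ), M.Sm u →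
      (∀ p, u p ∈ I ∧ QQ M b u p = Φ (c p, u p, M.vv u p)) →
      (∀ p, θ p < 3 / 16 → c p = c0 p ∧ |u p - s| < δ) →
      ∀ p, |dft M b Φ c (fun q => s + ct 16 (-1) (θ q) * (u q - s)) p| ≤ ε := by
  obtain ⟨δ, hδ, h⟩ := loc_on hb hΦ hθ isOpen_univ
    ((inter_univ _).symm ▸ isCompact_lev hθ hc (by norm_num) (1 / 8)) h1 hs (fun p _ => h2 p) hε
  refine ⟨δ, hδ, fun c u hu h3 h4 p => ?_⟩
  rcases le_or_gt (θ p) (1 / 8) with h6 | h6
  · exact h c u _ hu (fun q _ hq => ⟨(h3 q).1, (h3 q).2, (h4 q hq).1, (h4 q hq).2, rfl⟩) p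
      (mem_univ p) h6
  · rw [dft_core (s := fun _ => s) hθ h6 (h3 p).2, abs_zero]
    exact hε.le

end Crest.Agent.N228.I

end
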