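import Crest.Agent.N228.I.World
import Crest.Agent.N228.A.GL_Mg
import Crest.Agent.N228.O.Net
import Crest.Agent.N228.T.Defs

/-! # Row 228 (helper11): from the run on an immersed manifold to `T.ARun` -/

set_option autoImplicit false
set_option linter.unusedSectionVars false
open Set Filter Topology Function
open scoped ContDiff
open Crest.Agent.N222 Crest.Agent.N222.A

noncomputable section

namespace Crest.Agent.N228.I

/-- `A.RunStmt` for immersed manifolds with a drift and spectators -/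
def IRun : Prop := ∀ (n : ℕ) (s c1 : ℝ), 1 ≤ n → 0 < s → 0 ≤ c1 → ∃ ρ I1 : ℝ,
  ∀ (K0 Λ : ℝ) (D : ℕ), 0 ≤ K0 → 0 ≤ Λ → ∃ τ : ℝ, 0 < τ ∧
  ∀ (ι : Type) [Fintype ι] [DecidableEq ι] (X : Type) [TopologicalSpace X] [T2Space X]
    (M : Imm n ι X) (B : ι → X → ℝ) (J : Type) [Fintype J] (f0 : J → X → ℝ) (om : X → ℝ)
    (L : Set X) (G : Type) [Fintype G] [DecidableEq G] (χ d : G → X → ℝ) (δ : G → G → ℝ),
    Injective M.x → (∀ a, M.Sm (B a)) → M.pre.Tan B → (∀ j, M.Sm (f0 j)) → M.Sm om →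
    IsCompact {p | om p ≤ 7} → Fintype.card G ≤ D →
    (∀ g, M.Sm (χ g) ∧ M.Sm (d g) ∧ ∀ x, 0 ≤ χ g x ∧ χ g x ≤ 1) →
    (∀ x ∈ L, s + ∑ j, M.pre.gam (f0 j) (f0 j) x ≤ M.pre.Eb B x ∧ M.pre.gam om om x ≤ τ ∧
      (∀ g, M.pre.gam (d g) (d g) x ≤ c1) ∧
      (∀ g g', d g x - d g' x ≤ δ g g' ∧ δ g g' ≤ d g x + d g' x) ∧
      (om x ≤ 0 → ∑ g, χ g x = 1 ∧ (∃ j : G → ℝ, (∀ g, 0 ≤ j g ∧
        M.pre.gam (χ g) (χ g) x ≤ j g * χ g x) ∧ ∑ g, j g ≤ K0) ∧ ∀ g, 0 < χ g x → d g x ≤ 1)) →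
    ∃ (κ : Type) (_ : Fintype κ) (_ : DecidableEq κ) (M' : Imm n κ X) (B' : κ → X → ℝ)
      (P : G → X → ℝ), Same M M' {p | 7 ≤ om p} ∧ Injective M'.x ∧ (∀ a, M.Sm (B' a)) ∧
      M'.pre.Tan B' ∧ (∀ p, 7 ≤ om p → M.pre.Eb B p ≤ M'.pre.Eb B' p) ∧
      (∀ g, M.Sm (P g) ∧ ∀ x, 0 ≤ P g x ∧ (P g x ≠ 0 → om x ≤ -2)) ∧
      ∀ x ∈ L, (∀ f, M.Sm f → M'.pre.gam f f x ≤ 2 * M.pre.gam f f x) ∧
        (om x ≤ -3 → ∑ g, P g x = 1) ∧ (∀ g, 0 < P g x → d g x ≤ ρ) ∧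
        ∑ g, M'.pre.gam (P g) (P g) x ≤ I1 ∧
        s / 8 + ∑ j, M'.pre.gam (f0 j) (f0 j) x + Λ * ∑ g, M'.pre.gam (P g) (P g) x ≤
          M'.pre.Eb B' x

variable {n : ℕ} {ι : Type} [Fintype ι] [DecidableEq ι] {X : Type} [TopologicalSpace X]

/-- the square root of a partition of unity from a net -/
theorem exists_root (M : Imm n ι X) {G : Type} [Fintype G] {d : G → X → ℝ}
    (hd : ∀ g, M.Sm (d g)) : ∃ ψ : G → X → ℝ, (∀ g, M.Sm (ψ g) ∧ ∀ x, ψ g x ^ 2 ≤ 1 ∧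
      (0 < ψ g x ^ 2 → d g x ≤ 1)) ∧ ∀ x, (∃ g, d g x ≤ 1 / 2) → ∑ g, ψ g x ^ 2 = 1 := by
  set u : G → X → ℝ := fun g x => ct (-2) 2 (d g x) with hu
  have su : ∀ g, M.Sm (u g) := fun g => (hd g).comp (contDiff_ct _ _)
  set t : X → ℝ := fun x => ∑ g, u g x ^ 2 with ht
  have st : M.Sm t := Imm.sm_sum _ fun g _ => (su g).pow 2
  have t0 : ∀ x, 0 ≤ t x := fun x => Finset.sum_nonneg fun g _ => sq_nonneg _
  have tu : ∀ g x, u g x ^ 2 ≤ t x := fun g x =>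
    Finset.single_le_sum (f := fun g => u g x ^ 2) (fun g _ => sq_nonneg _) (Finset.mem_univ g)
  set S : X → ℝ := fun x => t x + ct (-1) 1 (t x) with hS
  have sS : M.Sm S := st.add (st.comp (contDiff_ct _ _))
  have tS : ∀ x, t x ≤ S x := fun x => le_add_of_nonneg_right (ct_nonneg _ _ _)
  have S0 : ∀ x, 0 < S x := fun x => by
    rcases (t0 x).eq_or_lt with h | h
    · simp only [hS]
      rw [← h, ct_one (by norm_num)]
      norm_num
    · exact h.trans_le (tS x)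
  have e : ∀ g x, (u g x / √(S x)) ^ 2 = u g x ^ 2 / S x := fun g x => by
    rw [div_pow, Real.sq_sqrt (S0 x).le]
  refine ⟨fun g x => u g x / √(S x), fun g => ⟨(su g).div (sS.sqrt fun x => (S0 x).ne')
    fun x => (Real.sqrt_pos.2 (S0 x)).ne', fun x => ⟨?_, fun h => ?_⟩⟩, fun x ⟨g, hg⟩ => ?_⟩
  · rw [e, div_le_one (S0 x)]
    exact (tu g x).trans (tS x)
  · refine not_lt.1 fun h' => h.ne' ?_
    simp only [hu]
    rw [ct_zero (by linarith)]
    simp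
  · have h1 : 1 ≤ t x := by
      have := tu g x
      simp only [hu] at this
      rwa [ct_one (by linarith), one_pow] at this
    simp only [e]
    rw [← Finset.sum_div, div_eq_one_iff_eq (S0 x).ne']
    simp only [hS]
    rw [ct_zero (by linarith), add_zero]

theorem gam_sq {M : Imm n ι X} {ψ : X → ℝ} (h : M.Sm ψ) (p : X) :
    M.pre.gam (fun x => ψ x ^ 2) (fun x => ψ x ^ 2) p = 4 * M.pre.gam ψ ψ p * ψ p ^ 2 := by
  rw [gam_comp_self h (hasDerivAt_pow 2 (ψ p))]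
  simp only [Nat.cast_ofNat, Nat.add_one_sub_one, pow_one]
  ring

/-- **the run on an annulus** -/
theorem arun_of (h : IRun) {n : ℕ} (hn : 1 ≤ n) {s : ℝ} (hs : 0 < s) :
    ∃ C : ℝ, ∀ C', C ≤ C' → T.ARun n s (s / 16) C' 2 := by
  obtain ⟨ρ, I1, H⟩ := h n (s / 2) 3 hn (half_pos hs) (by norm_num)
  have cb0 : 0 ≤ N228.A.cb := by unfold N228.A.cb; positivity
  obtain ⟨W, W0, hW⟩ : ∃ W : ℝ, 0 < W ∧ N228.A.cb * ((1 / (2 * W)) ^ 2 * 2) ≤ s / 4 := by
    refine ⟨√(2 * N228.A.cb / s + 1), Real.sqrt_pos.2 (by positivity), ?_⟩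
    rw [div_pow, mul_pow, Real.sq_sqrt (by positivity), ← mul_assoc, one_pow, mul_one_div,
      div_mul_eq_mul_div,
      div_le_iff₀ (by positivity)]
    have : s / 4 * (2 ^ 2 * (2 * N228.A.cb / s + 1)) = 2 * N228.A.cb + s := by field_simp; ring
    linarith
  refine ⟨2 * ρ, fun C hC => ⟨W, W0, fun ι0 _ _ X _ _ _ _ _ M0 i0 l0 θ sθ gθ hK => ?_⟩⟩
  obtain ⟨G, _, _, d, δ, hd, tri, net, dd⟩ := exists_labels i0 l0 hK (ε := 1 / 8) (by norm_num)
  refine ⟨G, inferInstance, fun ι _ _ M B J _ f0 L ch inj sB tB s0 hL hΓ hE => ?_⟩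
  have sm : ∀ {f : X → ℝ}, M0.Sm f → M.Sm f := fun hf => by rwa [Imm.Sm, ch]
  obtain ⟨ψ, hψ, sψ⟩ := exists_root M fun g => sm (hd g).1
  obtain ⟨K0, hK0⟩ := hK.exists_bound_of_continuousOn (Imm.sm_sum (M := M) Finset.univ
    fun g _ => (Imm.sm_const 4).mul ((hψ g).1.gam (hψ g).1)).continuous.continuousOn
  set D : ℝ := (Fintype.card G : ℝ) with hD
  have D0 : 0 ≤ D := Nat.cast_nonneg _
  refine ⟨(2 * D * cc) ^ 2 * |I1|, fun b => ?_⟩
  obtain ⟨τ, τ0, H⟩ := H |K0| (b ^ 2 * (2 * D * cc) ^ 2) (Fintype.card G) (abs_nonneg _)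
    (by positivity)
  have dθ : ∀ t : ℝ, HasDerivAt (fun t : ℝ => 1 - t / (2 * W)) (-(1 / (2 * W))) t := fun t =>
    ((hasDerivAt_id' t).div_const _).const_sub 1
  have sθ' : M.Sm fun p => 1 - θ p / (2 * W) :=
    (Imm.sm_const _).sub ((sm sθ).div (Imm.sm_const _) fun _ => by positivity)
  have e1 : ∀ p, 1 - θ p / (2 * W) ≤ 1 / 2 ↔ W ≤ θ p := fun p => by
    rw [sub_le_comm, le_div_iff₀ (by positivity)]
    constructor <;> intro h <;> linarith
  obtain ⟨M1, B1, δ1, w, Ω, c1, sB1, tB1, δ0, hx, sw, h1⟩ := o2 sB tB sθ' hK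
    (fun p hp => (not_le.1 fun h => hp.not_ge ((e1 p).2 h)).le)
    (Γm := (1 / (2 * W)) ^ 2 * 2) (lam := 1) (ε := min (s / 4) (τ / 9)) (by positivity) le_rfl
    (by positivity)
  have sm1 : ∀ {f : X → ℝ}, M.Sm f → M1.Sm f := fun hf => by rwa [Imm.Sm, c1]
  have sm1' : ∀ {f : X → ℝ}, M1.Sm f → M.Sm f := fun hf => by rwa [Imm.Sm, c1] at hf
  have Ω1 : ∀ p, Ω p = 1 := fun p =>
    le_antisymm (h1 p).2.2.2.2.1 (by simpa using (h1 p).2.2.2.1)
  have le1 : ∀ p f, M.Sm f → M1.pre.gam f f p ≤ M.pre.gam f f p := fun p f hf => by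
    simpa [Ω1 p] using (h1 p).2.2.2.2.2.2.1 f hf
  have dom : ∀ t : ℝ, HasDerivAt (fun t : ℝ => 8 - 3 * t) (-(3 * 1)) t := fun t =>
    ((hasDerivAt_id' t).const_mul 3).const_sub 8
  have som : M.Sm fun p => 8 - 3 * w p := (Imm.sm_const _).sub ((Imm.sm_const _).mul sw)
  have far : ∀ p, W ≤ θ p → 8 ≤ 8 - 3 * w p := fun p hp => by
    linarith [((h1 p).2.2.1 ((e1 p).2 hp)).1]
  have near : ∀ p, 8 - 3 * w p < 8 → θ p < W := fun p hp => not_le.1 fun h => (far p h).not_gt hp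
  obtain ⟨κ, _, _, M', B', P, sa, inj', sB', tB', eE, hP, h2⟩ := H _ X M1 B1 J f0
    (fun p => 8 - 3 * w p) {p | θ p ≤ W} G (fun g x => ψ g x ^ 2) d δ
    (fun p q hpq => inj (by
      ext a
      exact mul_left_cancel₀ δ0.ne' (by rw [← hx, ← hx, hpq])))
    sB1 tB1 (fun j => sm1 (s0 j)) (sm1 som)
    (hK.of_isClosed_subset (isClosed_le som.continuous continuous_const) fun p hp =>
      (near p (by linarith [show 8 - 3 * w p ≤ 7 from hp])).le) le_rfl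
    (fun g => ⟨sm1 ((hψ g).1.pow 2), sm1 (sm (hd g).1), fun x => ⟨sq_nonneg _, ((hψ g).2 x).1⟩⟩)
    fun x hx => ⟨by
      have k1 := (h1 x).2.2.2.2.2.2.2.2.2 fun _ _ => by
        rw [gam_comp_self (sm sθ) (dθ _), neg_sq]
        exact mul_le_mul_of_nonneg_left (by linarith [hΓ θ (sm sθ) x hx, gθ x]) (sq_nonneg _)
      rw [Ω1, one_mul] at k1
      have k2 : ∑ j, M1.pre.gam (f0 j) (f0 j) x ≤ ∑ j, M.pre.gam (f0 j) (f0 j) x :=
        Finset.sum_le_sum fun j _ => le1 x _ (s0 j)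
      linarith [hE x (hL hx), min_le_left (s / 4) (τ / 9)], by
      rw [gam_comp_self (sm1 sw) (dom _)]
      linarith [(h1 x).2.2.2.2.2.2.2.1, min_le_right (s / 4) (τ / 9)], fun g => by
      linarith [le1 x _ (sm (hd g).1), hΓ _ (sm (hd g).1) x hx, ((hd g).2 x).2], tri x, fun _ =>
      ⟨sψ x ((net x hx).imp fun g hg => by linarith), ⟨fun g => 4 * M.pre.gam (ψ g) (ψ g) x,
        fun g => ⟨mul_nonneg (by norm_num) (Imm.gam_self_nonneg _ _),
          (le1 x _ ((hψ g).1.pow 2)).trans_eq (gam_sq (hψ g).1 x)⟩,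
        ((le_abs_self _).trans (hK0 x hx)).trans (le_abs_self _)⟩, fun g => ((hψ g).2 x).2⟩⟩
  have sP : ∀ g, M.Sm (P g) := fun g => sm1' (hP g).1
  have sm' : ∀ {f : X → ℝ}, M.Sm f → M'.Sm f := fun hf => sa.sm_iff.2 (sm1 hf)
  have P0 : ∀ g p, W ≤ θ p → P g p = 0 := fun g p hp => by_contra fun h => by
    linarith [((hP g).2 p).2 h, far p hp]
  have f1 : ∀ g p, W ≤ θ p → 2 * ct D 0 (P g p) - 1 = -1 := fun g p hp => by
    rw [P0 g p hp, ct_zero (by simp)]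
    ring
  have same : Same M M' {p | W ≤ θ p} := ⟨sa.ch.trans c1, fun p hp f g hf hg =>
    (sa.gam p (show 7 ≤ 8 - 3 * w p by linarith [far p hp]) f g (sm1 hf) (sm1 hg)).trans
      (((h1 p).1 ((e1 p).2 hp)).1 f g)⟩
  have gf : ∀ g p, M'.pre.gam (fun q => 2 * ct D 0 (P g q) - 1) (fun q => 2 * ct D 0 (P g q) - 1) p
      ≤ (2 * D * cc) ^ 2 * M'.pre.gam (P g) (P g) p := fun g p => by
    obtain ⟨e, he, he'⟩ := hasDerivAt_ct D 0 (P g p)
    rw [gam_comp_self (sm' (sP g)) ((he.const_mul 2).sub_const 1)]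
    rw [abs_of_nonneg D0] at he'
    exact mul_le_mul_of_nonneg_right (sq_le_sq' (by linarith [(abs_le.1 he').1])
      (by linarith [(abs_le.1 he').2])) (Imm.gam_self_nonneg _ _)
  refine ⟨κ, inferInstance, inferInstance, M', B', fun g q => 2 * ct D 0 (P g q) - 1, same, inj',
    fun a => sm1' (sB' a), tB', fun g => ((Imm.sm_const _).mul ((sP g).comp (contDiff_ct _ _))).sub
      (Imm.sm_const _), ⟨fun p hp => ?_, f1⟩, fun f hf p hp => ?_, fun p hp => ?_⟩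
  · have hp' : p ∈ {p | θ p ≤ W} := hp.trans W0.le
    have k1 := (h2 p hp').2.1 (by
      linarith [(h1 p).2.1 (by
        linarith [div_nonpos_of_nonpos_of_nonneg hp (by positivity : (0 : ℝ) ≤ 2 * W)])])
    obtain ⟨g, hg⟩ : ∃ g, 1 ≤ D * P g p := by
      by_contra hc
      push Not at hc
      have : Nonempty G := by
        by_contra he
        rw [not_nonempty_iff] at he
        simp at k1
      have := Finset.sum_lt_sum_of_nonempty Finset.univ_nonempty fun g _ => hc g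
      rw [← Finset.mul_sum, k1] at this
      simp [hD] at this
    have pos : ∀ q, 0 < D * P g q → d g q ≤ ρ := fun q hq => by
      have k2 : P g q ≠ 0 := fun h => by simp [h] at hq
      exact (h2 q (near q (by linarith [((hP g).2 q).2 k2])).le).2.2.1 g
        (((hP g).2 q).1.lt_of_ne' k2)
    refine ⟨g, by rw [ct_one (by linarith)]; norm_num, fun q hq => ?_⟩
    have k3 := pos q (not_le.1 fun h => by
      rw [ct_zero (by linarith)] at hq
      norm_num at hq)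
    linarith [dd g p q, pos p (by linarith)]
  · linarith [(h2 p hp).1 f (sm1 hf), le1 p f hf]
  · rcases le_or_gt (θ p) W with h | h
    · obtain ⟨-, -, -, k1, k2⟩ := h2 p h
      refine ⟨fun g => (gf g p).trans (mul_le_mul_of_nonneg_left ?_ (sq_nonneg _)), ?_⟩
      · exact ((Finset.single_le_sum (f := fun g => M'.pre.gam (P g) (P g) p)
          (fun g _ => Imm.gam_self_nonneg _ _) (Finset.mem_univ g)).trans k1).trans (le_abs_self _)
      · have k3 := mul_le_mul_of_nonneg_left (Finset.sum_le_sum (s := Finset.univ)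
          fun g _ => gf g p) (sq_nonneg b)
        rw [← Finset.mul_sum, ← mul_assoc] at k3
        linarith
    · have k1 : ∀ g, M'.pre.gam (fun q => 2 * ct D 0 (P g q) - 1)
          (fun q => 2 * ct D 0 (P g q) - 1) p = 0 := fun g =>
        gam_ev ((ev_gt (sm sθ) h).mono fun q hq => f1 g q hq.le) _
      refine ⟨fun g => by rw [k1]; positivity, ?_⟩
      simp only [k1, Finset.sum_const_zero, mul_zero, add_zero]
      rw [Finset.sum_congr rfl fun j _ => same.gam p h.le _ _ (s0 j) (s0 j)]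
      linarith [hE p hp, eE p (by linarith [far p h.le]), ((h1 p).1 ((e1 p).2 h.le)).2]

theorem irun : IRun := by
  intro n s c1 hn hs hc
  obtain ⟨ρ, I1, H⟩ := N228.A.run N228.A.gl n s c1 (by exact_mod_cast hn) hs hc
  refine ⟨ρ, I1, fun K0 Λ D hK hΛ => ?_⟩
  obtain ⟨τ, τ0, H⟩ := H K0 Λ D hK hΛ
  refine ⟨τ, τ0, fun ι _ _ X _ _ M B J _ f0 om L G _ _ χ d δ inj sB tB s0 so hc hD hχ h => ?_⟩
  obtain ⟨st, P, r, le, o1, o2⟩ := H (world M.ch L so (hc.of_isClosed_subset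
    (isClosed_le so.continuous continuous_const) fun p hp =>
      (show om p ≤ 5 from hp).trans (by norm_num)) s0) G ⟨ι, M, B, rfl, sB, tB⟩ χ d δ hD
    ⟨hχ, fun x hx => le_sub_iff_add_le.2 (h x hx).1, fun x hx => (h x hx).2.1,
      fun x hx => (h x hx).2.2.1, fun x hx => (h x hx).2.2.2.1, fun x hx => (h x hx).2.2.2.2⟩
  change St M.ch at st
  have l57 : ∀ p, 7 ≤ om p → 5 ≤ om p := fun p hp => le_trans (by norm_num) hp
  refine ⟨st.ι, inferInstance, inferInstance, st.M, st.b, P, ⟨r.ch, fun p hp => r.gam p (l57 p hp)⟩,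
    r.inj inj, fun a => (alg_sm st.ch).2 (st.sm a), st.tan, fun p hp => r.eb p (l57 p hp), o1,
    fun x hx => ⟨le x hx, (o2 x hx).2.1, (o2 x hx).2.2.1, (o2 x hx).2.2.2.1, ?_⟩⟩
  have : s / 8 + Λ * ∑ g, st.M.pre.gam (P g) (P g) x ≤
    st.M.pre.Eb st.b x - ∑ j, st.M.pre.gam (f0 j) (f0 j) x := (o2 x hx).2.2.2.2
  linarith

/-- **PART A\*** -/
theorem runs_of (h : IRun) {n : ℕ} (hn : 1 ≤ n) : ∃ C : ℝ, T.Runs n C := by
  obtain ⟨C1, h1⟩ := arun_of h hn (s := 1 / 2) (by norm_num)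
  obtain ⟨C2, h2⟩ := arun_of h hn (s := 1 / 64) (by norm_num)
  exact ⟨max C1 C2, 1 / 2, 1 / 2 / 16, 1 / 64, 1 / 64 / 16, 2, by norm_num, by norm_num, by norm_num,
    by norm_num, by norm_num, by norm_num, h1 _ (le_max_left _ _), h2 _ (le_max_right _ _)⟩

theorem runs {n : ℕ} (hn : 1 ≤ n) : ∃ C : ℝ, T.Runs n C := runs_of irun hn

end Crest.Agent.N228.I

end
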