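import Crest.Agent.N228.Cf.Step
import Crest.Agent.N228.I.Wall
import Crest.Agent.N228.Nk.Prof
import Crest.Agent.N222.A.F5
import Crest.Agent.N228.A.Defs
import Crest.Agent.N222.A.Slow
import Crest.Agent.N228.J.Fam

-- ▼ part N228/Cf/Gen
section

/-!
# Row 228, conformal toolbox (helper28): GEN with a conformal factor, buffers, the trace budget
-/

set_option autoImplicit false
set_option linter.unusedSectionVars false
open Set Filter Topology Function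
open scoped ContDiff
open Crest.Agent.N222 Crest.Agent.N222.Imm Crest.Agent.N222.A

noncomputable section

namespace Crest.Agent.N228.Cf

variable {d : ℕ} {ι ι' : Type} [Fintype ι] [DecidableEq ι] [Fintype ι'] [DecidableEq ι']
  {X : Type} [TopologicalSpace X] {M : Imm d ι X} {b : ι → X → ℝ} {v m Q σ a : X → ℝ} {u0 : ℝ}
  {f : ℝ → ℝ} {M' : Imm d ι' X} {b' : ι' → X → ℝ}

/-- the price of the conformal factor, `f1 = f'(v)`, `f2 = f''(v)` -/
def cfl (d U W a f1 f2 : ℝ) : ℝ :=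
  2 * (1 / U - a * U / 2) * f1 * (1 / W ^ 2) * (1 - 1 / W ^ 2)
    + f1 ^ 2 * ((1 / W ^ 2) ^ 2 + 1 / W ^ 2 + d - 2) + 2 * f2 * (1 - 1 / W ^ 2)

theorem gen_num' {W U u0 b a e τ Gb Ga f1 f2 d : ℝ} (hW : 1 ≤ W) (hu : 0 < u0) (hU : u0 ≤ U) :
    gen U W b (Gb / W) a (Ga / W) - ((2 / u0 + |a| * U) * |e| + e ^ 2) - cfl d U W a f1 f2 ≤
      ((1 - W⁻¹) / U - b * U / 2 + a * W⁻¹ * U / 2) ^ 2
        - (e + (a * U / 2 - (1 - W⁻¹) / U)) ^ 2
        - 2 * (-τ / U - (1 - W⁻¹) * (W - W⁻¹) / U ^ 2 - (W⁻¹ * Gb * U + b * (W - W⁻¹)) / 2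
          + (W⁻¹ * Ga * W⁻¹ * U + a * τ * U + a * W⁻¹ * (W - W⁻¹)) / 2)
        - 2 * (1 / U - a * U / 2) * τ
        - (f1 * W⁻¹ ^ 2 + (1 / U - a * U / 2) * (1 - W⁻¹ ^ 2)) ^ 2 - (d - 1) * f1 ^ 2 * W⁻¹ ^ 2
        - (2 * f2 + (d - 2) * f1 ^ 2) * (1 - W⁻¹ ^ 2) := by
  have W0 : 0 < W := by linarith
  have U0 : 0 < U := by linarith
  have y0 : 0 ≤ 1 - W⁻¹ := sub_nonneg.2 (inv_le_one_of_one_le₀ hW)
  have y1 : (1 - W⁻¹) / U ≤ 1 / u0 :=
    div_le_div₀ zero_le_one (by linarith [inv_pos.2 W0]) hu hU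
  have h2 : |a * U / 2 - (1 - W⁻¹) / U| ≤ |a| * U / 2 + 1 / u0 := by
    refine (abs_sub _ _).trans (add_le_add ?_ ?_)
    · rw [abs_div, abs_mul, abs_of_pos U0, abs_two]
    · rwa [abs_of_nonneg (div_nonneg y0 U0.le)]
  have h3 : e * (a * U / 2 - (1 - W⁻¹) / U) ≤ |e| * (|a| * U / 2 + 1 / u0) :=
    (le_abs_self _).trans (by rw [abs_mul]; exact mul_le_mul_of_nonneg_left h2 (abs_nonneg _))
  have e1 : gen U W b (Gb / W) a (Ga / W) =
      -((1 / U - a * U / 2) ^ 2 * (1 - W⁻¹ ^ 2) ^ 2) - 2 * (1 / U - a * U / 2) * τ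
      + ((1 - W⁻¹) / U - b * U / 2 + a * W⁻¹ * U / 2) ^ 2 - (a * U / 2 - (1 - W⁻¹) / U) ^ 2
        - 2 * (-τ / U - (1 - W⁻¹) * (W - W⁻¹) / U ^ 2 - (W⁻¹ * Gb * U + b * (W - W⁻¹)) / 2
          + (W⁻¹ * Ga * W⁻¹ * U + a * τ * U + a * W⁻¹ * (W - W⁻¹)) / 2) := by
    unfold gen; field_simp; ring
  have e2 : (2 / u0 + |a| * U) * |e| = 2 * (|e| * (|a| * U / 2 + 1 / u0)) := by ring
  have e3 : cfl d U W a f1 f2 = (f1 * W⁻¹ ^ 2 + (1 / U - a * U / 2) * (1 - W⁻¹ ^ 2)) ^ 2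
      - (1 / U - a * U / 2) ^ 2 * (1 - W⁻¹ ^ 2) ^ 2 + (d - 1) * f1 ^ 2 * W⁻¹ ^ 2
      + (2 * f2 + (d - 2) * f1 ^ 2) * (1 - W⁻¹ ^ 2) := by
    rw [cfl, one_div (W ^ 2), ← inv_pow]; ring
  rw [e1, e2, e3, add_sq e]
  linarith

/-- **GEN with a conformal factor** `e^{2 f(v)}` -/
theorem Step.gen_le (h : Step M b v (mm M.pre b Q σ a v u0) f M' b') (hQ : M.Sm Q) (hσ : M.Sm σ)
    (ha : M.Sm a) (hv : M.Sm v) (v0 : ∀ p, 0 ≤ v p) (hu : 0 < u0) (p : X) :
    Real.exp (-(2 * f (v p))) * (M.pre.Eb b p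
      + gen (u0 + v p) (√(1 + M.pre.gam v v p)) (beta Q σ v u0 p)
        (M.pre.gam v (beta Q σ v u0) p / √(1 + M.pre.gam v v p)) (a p)
        (M.pre.gam v a p / √(1 + M.pre.gam v v p))
      - ((2 / u0 + |a p| * (u0 + v p)) * |dfc M.pre b Q σ v u0 p| + dfc M.pre b Q σ v u0 p ^ 2)
      - cfl d (u0 + v p) (√(1 + M.pre.gam v v p)) (a p) (deriv f (v p)) (deriv (deriv f) (v p)))
      ≤ M'.pre.Eb b' p := by
  refine le_trans (mul_le_mul_of_nonneg_left ?_ (Real.exp_pos _).le)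
    (h.le hv p (1 / (u0 + v p) - a p * (u0 + v p) / 2))
  have hW : 1 ≤ √(1 + M.pre.gam v v p) :=
    Real.one_le_sqrt.2 (by linarith [gam_self_nonneg (M := M) v p])
  have wv := ww_mul_vv M v
  have en : nf M b v (mm M.pre b Q σ a v u0) = nn M.pre Q σ a v u0 := funext fun q => by
    simp only [nf, mm]
    linear_combination (M.pre.hb b v (vv M.pre v) q + nn M.pre Q σ a v u0 q) * wv q
  have em : mm M.pre b Q σ a v u0 p = dfc M.pre b Q σ v u0 p
      + (a p * (u0 + v p) / 2 - (1 - vv M.pre v p) / (u0 + v p)) := by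
    simp only [mm, dfc, nn]
    linear_combination (a p * (u0 + v p) / 2 - (1 - vv M.pre v p) / (u0 + v p)) * wv p
  have ev : vv M.pre v p * M.pre.gam v v p = ww M.pre v p - vv M.pre v p := by
    linear_combination ww M.pre v p * vv_sq_mul M v p
      - (vv M.pre v p * M.pre.gam v v p + vv M.pre v p) * wv p
  have n1 := gen_num' (b := beta Q σ v u0 p) (a := a p) (e := dfc M.pre b Q σ v u0 p)
    (τ := xd M v (vv M.pre v) p) (Gb := M.pre.gam v (beta Q σ v u0) p) (Ga := M.pre.gam v a p)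
    (f1 := deriv f (v p)) (f2 := deriv (deriv f) (v p)) (d := d) hW hu
    (le_add_of_nonneg_right (v0 p))
  have k := dir_nn hQ hσ ha hv v0 hu (M.pre.X v (vv M.pre v)) p
  rw [dirX v v, dirX v a, dirX v (beta Q σ v u0), dirX, dirX, ev] at k
  rw [en, em, xd, k]
  simp only [nn, A.vv, ww, xd] at n1 ⊢
  linarith








/-- **buffers**: `G` is the prescribed value of `h = div X + b(X)`, `m = W (h - G)` the defect -/
theorem Step.buf_le {G : X → ℝ} (h : Step M b v (fun p => ww M.pre v p * (hh M b v p - G p)) f M' b')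
    (hv : M.Sm v) (p : X) : Real.exp (-(2 * f (v p))) * (M.pre.Eb b p + G p ^ 2
      + 2 * xd M v G p - (ww M.pre v p * (hh M b v p - G p)) ^ 2 - d * deriv f (v p) ^ 2
      - 2 * deriv (deriv f) (v p) * (1 - vv M.pre v p ^ 2)) ≤ M'.pre.Eb b' p := by
  refine le_trans (mul_le_mul_of_nonneg_left ?_ (Real.exp_pos _).le) (h.le hv p 0)
  have en : nf M b v (fun p => ww M.pre v p * (hh M b v p - G p)) = fun p => -G p :=
    funext fun q => by
      simp only [nf]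
      linear_combination (hh M b v q - G q) * ww_mul_vv M v q
  have e2 : xd M v (fun p => -G p) p = -xd M v G p := by
    simp only [xd, gam_apply, D_neg, mul_neg, Finset.sum_neg_distrib]
  have h0 : 0 ≤ vv M.pre v p ^ 2 := sq_nonneg _
  have h1 : vv M.pre v p ^ 2 ≤ 1 := by
    nlinarith [vv_sq_mul M v p, mul_nonneg h0 (gam_self_nonneg (M := M) v p)]
  have h2 : 0 ≤ 2 - (vv M.pre v p ^ 2) ^ 2 - vv M.pre v p ^ 2 := by nlinarith
  rw [en, e2]
  nlinarith [mul_nonneg (sq_nonneg (deriv f (v p))) h2]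

/-- where `v` is locally constant the step with `n = G` changes only the scale -/
theorem Step.gam_of_grad (h : Step M b v m f M' b') (hv : M.Sm v) {g k : X → ℝ} (hg : M.Sm g)
    (hk : M.Sm k) {p : X} (h0 : M.pre.gam v v p = 0) :
    M'.pre.gam g k p = Real.exp (-(2 * f (v p))) * M.pre.gam g k p := by
  have h1 : M.pre.gam v g p = 0 := by
    rw [gam_self_eq, sq_eq_zero_iff, norm_eq_zero] at h0
    rw [gam_eq_inner, h0, inner_zero_left]
  rw [h.gam_eq hv hg hk, h1]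
  simp

theorem Step.gam_le (h : Step M b v m f M' b') (hv : M.Sm v) {g : X → ℝ} (hg : M.Sm g) (p : X) :
    M'.pre.gam g g p ≤ Real.exp (-(2 * f (v p))) * M.pre.gam g g p := by
  rw [h.gam_eq hv hg hg]
  refine mul_le_mul_of_nonneg_left (sub_le_self _ (div_nonneg (mul_self_nonneg _) ?_))
    (Real.exp_pos _).le
  linarith [gam_self_nonneg (M := M) v p]

/-! ### the trace budget -/

/-- `∑ dv_k ⊗ dv_k ≤ L g` implies `∑ |dv_k|² ≤ d L` -/
theorem trace_le (M : Imm d ι X) (l : List (X → ℝ)) (L : ℝ) (p : X)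
    (h : ∀ g, M.Sm g → (l.map fun w => M.pre.gam w g p ^ 2).sum ≤ L * M.pre.gam g g p) :
    (l.map fun w => M.pre.gam w w p).sum ≤ d * L := by
  have h1 : (l.map fun w => M.pre.gam w w p).sum =
      ∑ c, (l.map fun w => M.pre.gam w (M.pre.x c) p ^ 2).sum := by
    clear h
    induction l with
    | nil => simp
    | cons w l ih =>
      simp only [List.map_cons, List.sum_cons, Finset.sum_add_distrib, ih]
      congr 1
      rw [gam_apply]
      exact Finset.sum_congr rfl fun c _ => by rw [gam_comm, gam_x_left, sq]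
  rw [h1, ← M.tr_P p, Finset.sum_mul]
  refine Finset.sum_le_sum fun c _ => (h _ (M.sm_coord c)).trans_eq ?_
  rw [mul_comm]
  congr 1
  exact gam_x_left M c _ p


end Crest.Agent.N228.Cf

end
end

-- ▼ part N228/I/Buf0
section

/-! # Row 228 (helper72): profiles and pointwise inequalities for the sharp buffer -/

set_option autoImplicit false
set_option linter.unusedSectionVars false
open Set Filter Topology Function
open scoped ContDiff
open Crest.Agent.N222 Crest.Agent.N228.J Crest.Agent.N222.A Crest.Agent.N228.Cf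

noncomputable section

namespace Crest.Agent.N228.I

/-- the stiff–soft–stiff profile -/
theorem exists_prof {T K A η : ℝ} (hT : 0 < T) (hA : 0 < A) (hη : 0 < η) (hK : η ≤ K) :
    ∃ S : ℝ → ℝ, ContDiff ℝ ∞ S ∧ (∀ t, 0 < deriv S t) ∧ (∀ t, A ≤ deriv S t ∨ |S t| ≤ η) ∧
      S 0 = -K ∧ S (7 * T) = K ∧ -η ≤ S (T / 2) ∧ S (13 * T / 2) ≤ η := by
  obtain ⟨B, hAB, hB⟩ : ∃ B, A ≤ B ∧ K ≤ B * (T / 4) :=
    ⟨max A (K / (T / 4)), le_max_left _ _, (div_le_iff₀ (by positivity)).1 (le_max_right _ _)⟩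
  have B0 : 0 < B := hA.trans_le hAB
  obtain ⟨τ, τ0, τ1, τ2⟩ : ∃ τ, 0 < τ ∧ τ ≤ B ∧ τ * (4 * T) ≤ η / 2 :=
    ⟨min B (η / 2 / (4 * T)), by positivity, min_le_left _ _,
      (le_div_iff₀ (by positivity)).1 (min_le_right _ _)⟩
  obtain ⟨δ, δ0, δ1, δ2⟩ : ∃ δ, 0 < δ ∧ δ ≤ T / 4 ∧ B * δ ≤ η / 2 :=
    ⟨min (T / 4) (η / 2 / B), by positivity, min_le_left _ _,
      (le_div_iff₀' B0).1 (min_le_right _ _)⟩
  have fs := Nk.contDiff_prof' B τ δ
  have fd := fun L => (fs L).differentiable (by simp)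
  have f1 := fun L t => τ0.trans_le (Nk.le_deriv_prof τ1 δ L t)
  have soft : ∀ L t, L ≤ 7 * T / 2 → |t| ≤ L + δ → |Nk.prof B τ δ (L, t)| ≤ η := fun L t hL ht =>
    (Nk.abs_prof_le τ0.le τ1 δ0 ht).trans (by nlinarith)
  have big : K ≤ Nk.prof B τ δ (3 * T, 7 * T / 2) := by
    have h1 := (convex_Ici (3 * T + δ)).mul_sub_le_image_sub_of_le_deriv
      (fs (3 * T)).continuous.continuousOn (fd _).differentiableOn (C := B)
      (fun t ht => Nk.prof_stiff τ1 δ0 ((interior_subset ht).trans (le_abs_self _))) (3 * T + δ)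
      self_mem_Ici (7 * T / 2) (show 3 * T + δ ≤ _ by linarith) (by linarith)
    have h2 := monotone_of_deriv_nonneg (fd (3 * T)) (fun t => (f1 _ t).le)
      (show 0 ≤ 3 * T + δ by positivity)
    simp only [Nk.prof_zero] at h2
    nlinarith
  obtain ⟨L, ⟨s1, s2⟩, hs⟩ := intermediate_value_Icc' (show 3 * T ≤ 7 * T / 2 by linarith)
    (f := fun L => Nk.prof B τ δ (L, 7 * T / 2)) ((Nk.contDiff_prof B τ δ).continuous.comp
      (continuous_id.prodMk continuous_const)).continuousOn ⟨((le_abs_self _).trans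
      (soft _ _ le_rfl (by rw [abs_of_pos (by positivity)]; linarith))).trans hK, big⟩
  have e : ∀ t, deriv (fun t => Nk.prof B τ δ (L, t - 7 * T / 2)) t =
      deriv (fun s => Nk.prof B τ δ (L, s)) (t - 7 * T / 2) := fun t =>
    deriv_comp_sub_const (f := fun s => Nk.prof B τ δ (L, s)) ..
  refine ⟨fun t => Nk.prof B τ δ (L, t - 7 * T / 2), (fs L).comp (contDiff_id.sub contDiff_const),
    fun t => e t ▸ f1 _ _, fun t => ?_, ?_, ?_, ?_, ?_⟩
  · rw [e]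
    exact (le_total (L + δ) |t - 7 * T / 2|).imp (fun h => hAB.trans (Nk.prof_stiff τ1 δ0 h))
      (soft _ _ s2)
  · simp only [zero_sub, Nk.prof_neg]; exact congrArg Neg.neg hs
  · simp only [show 7 * T - 7 * T / 2 = 7 * T / 2 by ring]; exact hs
  · exact (abs_le.1 (soft _ _ s2 (abs_le.2 ⟨by linarith, by linarith⟩))).1
  · exact (abs_le.1 (soft _ _ s2 (abs_le.2 ⟨by linarith, by linarith⟩))).2


/-- the sharp profile `c tan (x₀ t)` -/
theorem exists_tan {c K : ℝ} (hc : 0 < c) (hK : 0 < K) : ∃ g : ℝ → ℝ,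
    ContDiffOn ℝ ∞ g (Icc (-1) 1) ∧ g 1 = K ∧ g (-1) = -K ∧ ∀ t ∈ Icc (-1 : ℝ) 1, |g t| ≤ K ∧
      ∃ e, HasDerivAt g e t ∧ 0 ≤ e ∧ 2 * c * e ≤ Real.pi * (c ^ 2 + g t ^ 2) := by
  set x := Real.arctan (K / c)
  have x0 : 0 < x := Real.arctan_pos.2 (by positivity)
  have x1 : x < Real.pi / 2 := Real.arctan_lt_pi_div_two _
  have m : ∀ t ∈ Icc (-1 : ℝ) 1, x * t ∈ Ioo (-(Real.pi / 2)) (Real.pi / 2) := fun t ht =>
    ⟨by nlinarith [ht.1], by nlinarith [ht.2]⟩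
  have co : ∀ t ∈ Icc (-1 : ℝ) 1, Real.cos (x * t) ≠ 0 := fun t ht =>
    (Real.cos_pos_of_mem_Ioo (m t ht)).ne'
  have g1 : c * Real.tan (x * 1) = K := by rw [mul_one, Real.tan_arctan]; field_simp
  have g2 : c * Real.tan (x * -1) = -K := by rw [mul_neg, Real.tan_neg, mul_neg, g1]
  refine ⟨fun t => c * Real.tan (x * t), fun t ht => (contDiffAt_const.mul
    ((Real.contDiffAt_tan.2 (co t ht)).comp t
      (contDiffAt_const.mul contDiffAt_id))).contDiffWithinAt, g1, g2, fun t ht => ⟨?_, _,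
    ((Real.hasDerivAt_tan (co t ht)).comp t ((hasDerivAt_id' t).const_mul x)).const_mul c,
    by positivity, ?_⟩⟩
  · have a1 := Real.strictMonoOn_tan.monotoneOn (m t ht) (m 1 ⟨by norm_num, le_rfl⟩)
      (mul_le_mul_of_nonneg_left ht.2 x0.le)
    have a2 := Real.strictMonoOn_tan.monotoneOn (m (-1) ⟨le_rfl, by norm_num⟩) (m t ht)
      (mul_le_mul_of_nonneg_left ht.1 x0.le)
    exact abs_le.2 ⟨g2 ▸ mul_le_mul_of_nonneg_left a2 hc.le, g1 ▸ mul_le_mul_of_nonneg_left a1 hc.le⟩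
  · rw [one_div, ← Real.inv_one_add_tan_sq (co t ht), inv_inv]
    have : 0 ≤ c ^ 2 + (c * Real.tan (x * t)) ^ 2 := by positivity
    nlinarith

/-! ### the gain, numerically -/

theorem num_wall {q y α s x ξ g A : ℝ} (q1 : 1 ≤ q) (ξ0 : 0 ≤ ξ) (ξ1 : ξ ≤ 1) (hx : ξ ≤ x)
    (hs : 0 ≤ s) (hA : 0 ≤ A) (ha : α ^ 2 ≤ ξ * g) (hg : g ≤ A * q ^ 3)
    (h : A ≤ s ∨ 4 * A ≤ y ^ 2) : 0 ≤ (q * y) ^ 2 + 2 * (y * α + q * (s * x - 0)) := by
  have q0 : 0 < q := one_pos.trans_le q1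
  have a1 := ha.trans (mul_le_mul_of_nonneg_left hg ξ0)
  have a2 : 0 ≤ q * (s * x) := mul_nonneg q0.le (mul_nonneg hs (ξ0.trans hx))
  rcases h with h | h
  · have a3 : q * (A * ξ) ≤ q * (s * x) :=
      mul_le_mul_of_nonneg_left (mul_le_mul h hx ξ0 hs) q0.le
    have b1 : 0 ≤ (q * y) ^ 2 + 2 * (y * α) + q * (A * ξ) := by
      refine le_of_mul_le_mul_left ?_ (pow_pos q0 2)
      nlinarith [sq_nonneg (q ^ 2 * y + α)]
    linarith
  · have a3 : α ^ 2 ≤ A * q ^ 4 := a1.trans ((mul_le_of_le_one_left (by positivity) ξ1).trans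
      (mul_le_mul_of_nonneg_left (pow_le_pow_right₀ q1 (by norm_num)) hA))
    have a4 : (2 * α) ^ 2 ≤ (q ^ 2 * y) ^ 2 := by
      nlinarith [mul_le_mul_of_nonneg_left h (pow_pos q0 4).le]
    have a5 : |2 * α| * |y| ≤ |q ^ 2 * y| * |y| :=
      mul_le_mul_of_nonneg_right (sq_le_sq.1 a4) (abs_nonneg _)
    rw [← abs_mul, ← abs_mul, abs_of_nonneg (a := q ^ 2 * y * y) (by nlinarith [sq_nonneg (q * y)])]
      at a5
    nlinarith [neg_abs_le (2 * α * y)]

theorem num_stiff {y β s x ξ B A ε : ℝ} (ξ0 : 0 ≤ ξ) (hx : ξ ≤ x) (hε : 0 < ε) (hA : 0 ≤ A)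
    (hb : β ^ 2 ≤ ξ * B) (hB : B ≤ ε * A) (h : A ≤ s) :
    -ε ≤ (1 * y) ^ 2 + 2 * (y * 0 + 1 * (s * x - β)) := by
  have a1 : A * ξ ≤ s * x := mul_le_mul h hx ξ0 (hA.trans h)
  have a2 : 2 * β ≤ A * ξ + ε := by
    refine le_of_sq_le_sq (le_trans ?_ (four_mul_le_sq_add _ _)) (by positivity)
    nlinarith [mul_le_mul_of_nonneg_left hB ξ0]
  nlinarith [sq_nonneg y, mul_nonneg hA ξ0]

theorem num_soft {S h β s x c e g r η K : ℝ} (hx : 0 ≤ x) (hs : 0 ≤ s) (hc : 0 < c) (e0 : 0 ≤ e)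
    (hS : |S| ≤ η) (hh : |h| ≤ K) (hb : β ^ 2 ≤ e ^ 2 * g)
    (he : 2 * c * e ≤ Real.pi * (c ^ 2 + h ^ 2)) (r0 : 0 ≤ r) (r1 : r ≤ 1)
    (hg : Real.pi ^ 2 * g ≤ (r * c) ^ 2) :
    -(r * c ^ 2) - 2 * η * K ≤ (1 * (S - h)) ^ 2 + 2 * ((S - h) * 0 + 1 * (s * x - β)) := by
  have p0 := Real.pi_pos
  have a1 : S * h ≤ η * K := (le_abs_self _).trans ((abs_mul _ _).trans_le
    (mul_le_mul hS hh (abs_nonneg _) ((abs_nonneg _).trans hS)))
  have a2 : Real.pi * β ≤ e * (r * c) := by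
    refine le_of_sq_le_sq ?_ (by positivity)
    nlinarith [mul_le_mul_of_nonneg_left hb (sq_nonneg Real.pi),
      mul_le_mul_of_nonneg_left hg (sq_nonneg e)]
  have a3 : 2 * β ≤ r * (c ^ 2 + h ^ 2) := by
    refine le_of_mul_le_mul_left ?_ p0
    nlinarith [mul_le_mul_of_nonneg_left he r0]
  nlinarith [mul_nonneg hs hx, sq_nonneg S, mul_le_of_le_one_left (sq_nonneg h) r1]

variable {d : ℕ} {ι : Type} [Fintype ι] [DecidableEq ι] {X : Type} [TopologicalSpace X]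
  {M : Imm d ι X} {b : ι → X → ℝ} {θ v : X → ℝ}

theorem xi_mem (M : Imm d ι X) (v : X → ℝ) (p : X) : 0 ≤ 1 - vv M.pre v p ^ 2 ∧
    1 - vv M.pre v p ^ 2 ≤ 1 ∧ 1 - vv M.pre v p ^ 2 ≤ xd M v v p := by
  have h1 := vv_sq_mul M v p
  have h2 : 0 < vv M.pre v p := M.vv_pos v p
  have h3 : vv M.pre v p ≤ 1 := M.vv_le_one v p
  have h4 := Imm.gam_self_nonneg (M := M) v p
  refine ⟨by nlinarith, by nlinarith, ?_⟩
  rw [xd]
  nlinarith [mul_nonneg (mul_nonneg h2.le h4) (sub_nonneg.2 h3)]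

theorem xd_sq_le (M : Imm d ι X) (v f : X → ℝ) (p : X) :
    xd M v f p ^ 2 ≤ (1 - vv M.pre v p ^ 2) * M.pre.gam f f p := by
  have h1 : M.pre.gam v f p ^ 2 ≤ M.pre.gam v v p * M.pre.gam f f p := by
    simpa only [Imm.gam_apply, sq] using Finset.sum_mul_sq_le_sq_mul_sq Finset.univ
      (fun a => M.pre.D a v p) fun a => M.pre.D a f p
  have h2 := mul_le_mul_of_nonneg_left h1 (sq_nonneg (vv M.pre v p))
  rw [xd, mul_pow]
  linear_combination h2 + M.pre.gam f f p * vv_sq_mul M v p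

theorem xd_rhs {q h : X → ℝ} {S : ℝ → ℝ} (hv : M.Sm v) (hq : M.Sm q) (hh : M.Sm h)
    (hS : ContDiff ℝ ∞ S) (p : X) : xd M v (fun p => q p * (S (v p) - h p)) p =
      (S (v p) - h p) * xd M v q p + q p * (deriv S (v p) * xd M v v p - xd M v h p) := by
  simp only [xd, Imm.gam_apply, Imm.D_mul (hq.diffAt p) (((hv.comp hS).sub hh).diffAt p),
    Imm.D_sub ((hv.comp hS).diffAt p) (hh.diffAt p),
    Imm.D_comp (hv.diffAt p) (hS.differentiable (by simp) _).hasDerivAt, Finset.mul_sum,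
    ← Finset.sum_sub_distrib, ← Finset.sum_add_distrib]
  exact Finset.sum_congr rfl fun _ _ => by ring

theorem xd_ev {f : X → ℝ} {p : X} {s : ℝ} (h : ∀ᶠ q in 𝓝 p, f q = s) : xd M v f p = 0 := by
  rw [xd, gam_comm, gam_ev h, mul_zero]

/-- the slope of the wall does not depend on its height -/
theorem exists_wall_bd (hθ : M.Sm θ) (hc : IsCompact {p | 0 ≤ θ p}) : ∃ A, 0 < A ∧ ∀ δ, 0 < δ →
    δ ≤ 1 → ∀ p, M.pre.gam (fun q => wq δ (θ q)) (fun q => wq δ (θ q)) p ≤ A * wq δ (θ p) ^ 3 := by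
  obtain ⟨C, hC⟩ := hc.exists_bound_of_continuousOn (hθ.gam hθ).continuous.continuousOn
  refine ⟨(32 / 3 * cc) ^ 2 * |C| + 1, by positivity, fun δ h0 h1 p => ?_⟩
  have q0 := pow_pos (one_pos.trans_le (one_le_wq h0 h1 (θ p))) 3
  rcases le_or_gt 0 (θ p) with hp | hp
  · obtain ⟨e, he, hb⟩ := hasDerivAt_wq h0 h1 (θ p)
    rw [gam_comp_self hθ he]
    have := mul_le_mul hb (((le_abs_self _).trans (hC p hp)).trans (le_abs_self C))
      (Imm.gam_self_nonneg _ _) (by positivity)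
    linarith
  · rw [gam_ev (s := 1) ((ev_lt hθ hp).mono fun q hq => wq_out (Or.inl (by linarith)))]
    positivity

end Crest.Agent.N228.I

end
end

-- ▼ part N228/I/Ps
section

/-! # Row 228 (helper72): the localised solution of the slow step -/

set_option autoImplicit false
set_option linter.unusedSectionVars false
open Set Filter Topology Function
open scoped ContDiff
open Crest.Agent.N222 Crest.Agent.N228.J Crest.Agent.N222.A Crest.Agent.N228.Cf

noncomputable section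

namespace Crest.Agent.N228.I

variable {d : ℕ} {ι : Type} [Fintype ι] [DecidableEq ι] {X : Type} [TopologicalSpace X]
  [T2Space X] {M : Imm d ι X} {b : ι → X → ℝ} {θ Q σ v : X → ℝ} {u0 : ℝ}

theorem dfc_eq {p : X} (h : u0 + v p ≠ 0) :
    dfc M.pre b Q σ v u0 p = dft M b (A.PhiS u0) (fun p => (Q p, σ p)) v p := by
  have e : QQ M b v p = M.pre.hb b v (vv M.pre v) p := rfl
  have e' : M.vv v p = vv M.pre v p := rfl
  simp only [dfc, dft, A.PhiS, beta, e, e']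
  congr 1
  field_simp
  ring

theorem phi_ge {q s t w : ℝ} (hu : 0 < u0) (ht : 0 ≤ t) :
    -u0⁻¹ + q / 2 * (((u0 + t) ^ 2 - (4 * s + u0 ^ 2)) / (u0 + t)) ≤
      A.PhiS u0 ((q, s), t, w) := by
  have h1 : (u0 + t)⁻¹ ≤ u0⁻¹ := inv_anti₀ hu (by linarith)
  have h2 : (1 - w ^ 2) * (u0 + t)⁻¹ ≤ (u0 + t)⁻¹ :=
    mul_le_of_le_one_left (by positivity) (by nlinarith)
  have h3 : ((u0 + t) ^ 2 - (4 * s + u0 ^ 2)) / (u0 + t) =
      u0 + t - (4 * s + u0 ^ 2) * (u0 + t)⁻¹ := by field_simp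
  simp only [A.PhiS, h3]
  linarith

theorem phi_one {q s t : ℝ} (h : u0 + t ≠ 0) : A.PhiS u0 ((q, s), t, 1) =
    q / 2 * (((u0 + t) ^ 2 - (4 * s + u0 ^ 2)) / (u0 + t)) := by
  simp only [A.PhiS]
  field_simp
  ring

/-- **the slow step behind a wall** -/
theorem ps_sol (hb : ∀ a, M.Sm (b a)) (hθ : M.Sm θ) (hc : IsCompact {p | 0 ≤ θ p}) (hQ : M.Sm Q)
    (hσ : M.Sm σ) {κ s ε : ℝ} (hκ : 0 < κ) (Q0 : ∀ p, κ ≤ Q p) (σ0 : ∀ p, 0 ≤ σ p ∧ σ p ≤ s)
    (h0 : ∀ p, θ p ≤ 1 → σ p = 0) (hu : 0 < u0) (hs : 0 ≤ s) (hε : 0 < ε) :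
    ∃ (y : ℝ) (v : X → ℝ), 0 < y ∧ y ≤ 1 ∧ M.Sm v ∧ ∀ p, 0 ≤ v p ∧
      (u0 + v p) ^ 2 ≤ u0 ^ 2 + 4 * s ∧ (θ p ≤ 1 / 16 → v p = 0) ∧
      |dfc M.pre b (fun q => Q q * wq y (θ q)) σ v u0 p| ≤ ε ∧
      (θ p < 1 / 16 → dfc M.pre b (fun q => Q q * wq y (θ q)) σ v u0 p = 0) := by
  obtain ⟨t, t0, ht⟩ : ∃ t, 0 ≤ t ∧ (u0 + t) ^ 2 = u0 ^ 2 + 4 * s :=
    ⟨√(u0 ^ 2 + 4 * s) - u0, sub_nonneg.2 (Real.le_sqrt_of_sq_le (by linarith)), by
      rw [add_sub_cancel, Real.sq_sqrt (by positivity)]⟩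
  have z0 : ∀ q, A.PhiS u0 ((q, 0), 0, 1) = 0 := fun q => by rw [phi_one (by linarith)]; simp
  obtain ⟨δ, δ0, hδ⟩ := loc_sol hb (A.good_PhiS (u0 := u0)) hθ hc (hQ.prodMk hσ)
    (show (0 : ℝ) ∈ Ioi (-u0) from neg_lt_zero.2 hu)
    (fun p hp => ⟨⟨hκ.trans_le (Q0 p), (σ0 p).1⟩, by rw [h0 p (by linarith), z0]⟩) hε
  have sp : M.Sm fun p => t * ct 16 (-9) (θ p) := (Imm.sm_const _).mul (hθ.comp (contDiff_ct _ _))
  obtain ⟨C, C0, hC⟩ := exists_QQ_bd hb hθ hc sp (s := 0) fun p hp => by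
    rw [ct_zero (by linarith), mul_zero]
  obtain ⟨y, y0, y1, hy⟩ := exists_wq (m := κ / 2 * (δ / 2)) (C := C + u0⁻¹) (by positivity)
  have q1 := fun p => one_le_wq y0 y1 (θ p)
  have q0 : ∀ p, 0 < Q p * wq y (θ p) := fun p =>
    mul_pos (hκ.trans_le (Q0 p)) (one_pos.trans_le (q1 p))
  have a0 := fun p => mul_nonneg t0 (ct_nonneg 16 (-9) (θ p))
  have up : ∀ p r, 0 ≤ r → 4 * σ p + u0 ^ 2 ≤ (u0 + r) ^ 2 →
      0 ≤ A.PhiS u0 ((Q p * wq y (θ p), σ p), r, 1) := fun p r r0 h => by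
    rw [phi_one (by linarith)]
    exact mul_nonneg (half_pos (q0 p)).le (div_nonneg (sub_nonneg.2 h) (by linarith))
  have sq := hQ.mul (hθ.comp (contDiff_wq y0 y1))
  have key : ∃ u, M.Sm u ∧ ∀ p, QQ M b u p = A.PhiS u0 ((Q p * wq y (θ p), σ p), u p, M.vv u p) ∧
      0 ≤ u p ∧ u p ≤ min (t * ct 16 (-9) (θ p) + δ / 2) t := by
    refine exists_sol hb (A.good_PhiS (u0 := u0)) (sq.prodMk hσ) (fun p => ⟨q0 p, (σ0 p).1⟩)
      continuous_const ((sp.add (Imm.sm_const _)).continuous.min continuous_const) (fun p => ?_)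
      (fun p => sub_const hb ?_) fun p => Sup.min ?_ (sup_const hb (up p t t0 ?_))
    · have := le_min (show 0 ≤ t * ct 16 (-9) (θ p) + δ / 2 by linarith [a0 p]) t0
      exact ⟨neg_lt_zero.2 hu, (neg_lt_zero.2 hu).trans_le this, this⟩
    · rw [phi_one (by linarith)]
      exact mul_nonpos_of_nonneg_of_nonpos (half_pos (q0 p)).le
        (div_nonpos_of_nonpos_of_nonneg (by linarith [(σ0 p).1]) (by linarith))
    · rcases lt_or_ge (θ p) (9 / 16) with h3 | h3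
      · refine sup_ev hb (s := δ / 2) ((ev_lt hθ h3).mono fun q hq => by
          rw [ct_zero (by linarith)]; ring) (up p _ (by linarith) ?_)
        rw [h0 p (by linarith)]
        nlinarith
      rcases le_or_gt (θ p) (5 / 8) with h4 | h4
      · refine sup_of_sm hb (sp.add (Imm.sm_const _)) ?_
        rw [QQ_add_const]
        refine (abs_le.1 (hC p)).2.trans (le_trans ?_ (phi_ge hu (by linarith [a0 p])))
        rw [h0 p (by linarith), wq_top h3 h4]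
        set r := t * ct 16 (-9) (θ p) + δ / 2
        have r0 : δ / 2 ≤ r := le_add_of_nonneg_left (a0 p)
        have r1 : δ / 2 ≤ ((u0 + r) ^ 2 - (4 * 0 + u0 ^ 2)) / (u0 + r) :=
          r0.trans ((le_div_iff₀ (by linarith)).2 (by nlinarith))
        have r2 := mul_le_mul (mul_le_mul_of_nonneg_right (Q0 p) (sq_nonneg y⁻¹)) r1
          (by linarith) (mul_nonneg (hκ.trans_le (Q0 p)).le (sq_nonneg _))
        linarith
      · refine sup_ev hb (s := t + δ / 2) ((ev_gt hθ h4).mono fun q hq => by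
          rw [ct_one (by linarith)]; ring) (up p _ (by linarith) ?_)
        nlinarith [(σ0 p).2]
    · linarith [(σ0 p).2]
  obtain ⟨u, hu', H⟩ := key
  have hd := hδ (fun p => (Q p * wq y (θ p), σ p)) u hu'
    (fun p => ⟨(neg_lt_zero.2 hu).trans_le (H p).2.1, (H p).1⟩) fun p hp =>
      ⟨by rw [wq_out (Or.inl hp.le), mul_one], by
        have := (H p).2.2.trans (min_le_left _ _)
        rw [ct_zero (by linarith)] at this
        rw [sub_zero, abs_of_nonneg (H p).2.1]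
        linarith⟩
  simp only [zero_add, sub_zero] at hd
  have v0 : ∀ p, 0 ≤ ct 16 (-1) (θ p) * u p := fun p => mul_nonneg (ct_nonneg _ _ _) (H p).2.1
  have vz : ∀ p, θ p ≤ 1 / 16 → ct 16 (-1) (θ p) * u p = 0 := fun p hp => by
    rw [ct_zero (by linarith), zero_mul]
  refine ⟨y, fun q => ct 16 (-1) (θ q) * u q, y0, y1, (hθ.comp (contDiff_ct _ _)).mul hu',
    fun p => ⟨v0 p, ht ▸ pow_le_pow_left₀ (by linarith [v0 p]) ?_ 2, vz p, ?_, fun hp => ?_⟩⟩
  · linarith [mul_le_of_le_one_left (H p).2.1 (ct_le_one 16 (-1) (θ p)),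
      (H p).2.2.trans (min_le_right _ _)]
  · rw [dfc_eq (by linarith [v0 p])]; exact hd p
  · rw [dfc_eq (by linarith [v0 p]), dft_congr (w := fun _ => 0)
      ((ev_lt hθ hp).mono fun q hq => vz q hq.le) rfl, dft_const (by rw [h0 p (by linarith), z0])]

theorem slow_mono {U W Q Q' r j a G : ℝ} (hW : 1 ≤ W) (h0 : 0 ≤ Q) (h : Q ≤ Q') (hr : 0 ≤ r)
    (hj : 0 ≤ j) (ha : a ≤ 0) : slow U W Q 0 r j a G ≤ slow U W Q' 0 r 0 a G := by
  have h1 : 1 / W ^ 2 ≤ 1 := (div_le_one (by positivity)).2 (one_le_pow₀ hW)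
  have h2 := mul_le_mul_of_nonneg_right h (sub_nonneg.2 h1)
  have h3 : 7 / 8 * Q ^ 2 * r ^ 2 / (U ^ 2 / 4) ≤ 7 / 8 * Q' ^ 2 * r ^ 2 / (U ^ 2 / 4) := by gcongr
  have h4 : 2 * a * Q' * r / W ≤ 2 * a * Q * r / W :=
    div_le_div_of_nonneg_right (by
      nlinarith [mul_nonneg (mul_nonneg (neg_nonneg.2 ha) (sub_nonneg.2 h)) hr]) (by linarith)
  simp only [slow, mul_zero, zero_mul, zero_div]
  linarith [mul_nonneg h0 hj]

theorem gam_mul_le {w z : X → ℝ} (hw : M.Sm w) (hz : M.Sm z) (p : X) :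
    M.pre.gam (fun q => w q * z q) (fun q => w q * z q) p ≤
      9 / 8 * (z p ^ 2 * M.pre.gam w w p) + 9 * (w p ^ 2 * M.pre.gam z z p) := by
  simp only [Imm.gam_apply, Finset.mul_sum, ← Finset.sum_add_distrib,
    Imm.D_mul (hw.diffAt p) (hz.diffAt p)]
  exact Finset.sum_le_sum fun a _ => by
    nlinarith [sq_nonneg (z p * M.pre.D a w p - 8 * (w p * M.pre.D a z p))]

/-- the wall is cheap -/
theorem gam_wall (hθ : M.Sm θ) (hQ : M.Sm Q) {y : ℝ} (y0 : 0 < y) (y1 : y ≤ 1) {p : X}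
    (Q0 : 0 ≤ Q p) (h1 : M.pre.gam Q Q p ≤ Q p ^ 3 / 81)
    (h2 : 640000 * cc ^ 2 * M.pre.gam θ θ p ≤ Q p) :
    M.pre.gam (fun q => Q q * wq y (θ q)) (fun q => Q q * wq y (θ q)) p ≤
      (Q p * wq y (θ p)) ^ 3 / 64 := by
  obtain ⟨e, he, hb⟩ := hasDerivAt_wq y0 y1 (θ p)
  have q1 := one_le_wq y0 y1 (θ p)
  refine (gam_mul_le hQ (hθ.comp (contDiff_wq y0 y1)) p).trans ?_
  rw [gam_comp_self hθ he]
  set w := wq y (θ p)
  have a1 : w ^ 2 * M.pre.gam Q Q p ≤ w ^ 3 * (Q p ^ 3 / 81) :=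
    mul_le_mul (pow_le_pow_right₀ q1 (by norm_num)) h1 (Imm.gam_self_nonneg _ _) (by positivity)
  have a2 : e ^ 2 * M.pre.gam θ θ p ≤ w ^ 3 * (Q p / 5625) := by
    have := mul_le_mul_of_nonneg_left h2 (show 0 ≤ w ^ 3 by positivity)
    linarith [mul_le_mul_of_nonneg_right hb (Imm.gam_self_nonneg (M := M) θ p)]
  have a3 := mul_le_mul_of_nonneg_left a2 (sq_nonneg (Q p))
  have a4 : 0 ≤ w ^ 3 * Q p ^ 3 := by positivity
  nlinarith

end Crest.Agent.N228.I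

end
end

-- ▼ part N228/Cf/Zv
section

/-! # Row 228, conformal toolbox (helper28): GEN with the factor `exp (- z v² / 4)` -/

set_option autoImplicit false
set_option linter.unusedSectionVars false
open Set Filter Topology Function
open scoped ContDiff
open Crest.Agent.N222 Crest.Agent.N222.Imm Crest.Agent.N222.A

noncomputable section

namespace Crest.Agent.N228.Cf

variable {d : ℕ} {ι ι' : Type} [Fintype ι] [DecidableEq ι] [Fintype ι'] [DecidableEq ι']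
  {X : Type} [TopologicalSpace X] {M : Imm d ι X} {b : ι → X → ℝ} {v m Q σ a : X → ℝ} {u0 : ℝ}
  {M' : Imm d ι' X} {b' : ι' → X → ℝ}

/-- the conformal factor `- z t² / 4` -/
def cq (z t : ℝ) : ℝ := -(z * t ^ 2 / 4)

theorem contDiff_cq (z : ℝ) : ContDiff ℝ ∞ (cq z) :=
  ((contDiff_const.mul (contDiff_id.pow 2)).div_const 4).neg

theorem deriv_cq (z : ℝ) : deriv (cq z) = fun t => -(z * t / 2) := by
  funext t
  have h := ((((hasDerivAt_id t).fun_pow 2).const_mul z).div_const 4).fun_neg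
  refine h.deriv.trans ?_
  simp only [id]
  ring

theorem deriv2_cq (z t : ℝ) : deriv (deriv (cq z)) t = -(z / 2) := by
  rw [deriv_cq]
  have h := (((hasDerivAt_id t).const_mul z).div_const 2).fun_neg
  refine h.deriv.trans ?_
  ring

theorem cfl_cq_le {d U W a z v : ℝ} (hW : 1 ≤ W) (hU : 0 < U) (hz : 0 ≤ z) (v0 : 0 ≤ v)
    (hv : v ≤ U) : cfl d U W a (-(z * v / 2)) (-(z / 2)) ≤ -A.zg d z U W v a := by
  have h0 : 0 ≤ 1 / W ^ 2 := by positivity
  have h1 : 1 / W ^ 2 ≤ 1 := (div_le_one (by positivity)).2 (one_le_pow₀ hW)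
  rw [cfl, A.zg]
  generalize 1 / W ^ 2 = w at h0 h1 ⊢
  have h2 : 0 ≤ 2 - w ^ 2 - w := by nlinarith
  have c0 : 0 ≤ 1 - w := sub_nonneg.2 h1
  have h3 : 0 ≤ 1 / U * (z * v) * (w * (1 - w)) := by positivity
  have h4 : a * (v * w) ≤ |a| * U :=
    (mul_le_mul_of_nonneg_right (le_abs_self a) (mul_nonneg v0 h0)).trans
      (mul_le_mul_of_nonneg_left (by nlinarith) (abs_nonneg a))
  have h5 := mul_le_mul_of_nonneg_left h4 (show 0 ≤ z * (U / 2) * (1 - w) by positivity)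
  nlinarith [mul_nonneg (sq_nonneg (z * v / 2)) h2]

/-- **GEN + zg** -/
theorem Step.gen_zg {z : ℝ} (h : Step M b v (mm M.pre b Q σ a v u0) (cq z) M' b') (hQ : M.Sm Q)
    (hσ : M.Sm σ) (ha : M.Sm a) (hv : M.Sm v) (v0 : ∀ p, 0 ≤ v p) (hu : 0 < u0) (hz : 0 ≤ z)
    (p : X) : Real.exp (z * v p ^ 2 / 2) * (M.pre.Eb b p
      + gen (u0 + v p) (√(1 + M.pre.gam v v p)) (beta Q σ v u0 p)
        (M.pre.gam v (beta Q σ v u0) p / √(1 + M.pre.gam v v p)) (a p)
        (M.pre.gam v a p / √(1 + M.pre.gam v v p))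
      - ((2 / u0 + |a p| * (u0 + v p)) * |dfc M.pre b Q σ v u0 p| + dfc M.pre b Q σ v u0 p ^ 2)
      + A.zg d z (u0 + v p) (√(1 + M.pre.gam v v p)) (v p) (a p)) ≤ M'.pre.Eb b' p := by
  have hW : 1 ≤ √(1 + M.pre.gam v v p) :=
    Real.one_le_sqrt.2 (by linarith [gam_self_nonneg (M := M) v p])
  have h1 := h.gen_le hQ hσ ha hv v0 hu p
  have e : -(2 * cq z (v p)) = z * v p ^ 2 / 2 := by rw [cq]; ring
  rw [deriv2_cq, deriv_cq, e] at h1
  refine le_trans (mul_le_mul_of_nonneg_left ?_ (Real.exp_pos _).le) h1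
  linarith [cfl_cq_le (d := d) (a := a p) hW (add_pos_of_pos_of_nonneg hu (v0 p)) hz (v0 p)
    (le_add_of_nonneg_left hu.le)]

theorem Step.gam_zg {z : ℝ} (h : Step M b v m (cq z) M' b') (hv : M.Sm v) {g k : X → ℝ}
    (hg : M.Sm g) (hk : M.Sm k) (p : X) : M'.pre.gam g k p = Real.exp (z * v p ^ 2 / 2) *
      (M.pre.gam g k p - M.pre.gam v g p * M.pre.gam v k p / (1 + M.pre.gam v v p)) := by
  rw [h.gam_eq hv hg hk, cq]
  congr 2
  ring

end Crest.Agent.N228.Cf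

end
end

-- ▼ part N228/I/O1
section

/-! # Row 228 (helper72): the oracle `pstep` on immersions -/

set_option autoImplicit false
set_option linter.unusedSectionVars false
open Set Filter Topology Function
open scoped ContDiff
open Crest.Agent.N222 Crest.Agent.N228.J Crest.Agent.N222.A Crest.Agent.N228.Cf

noncomputable section

namespace Crest.Agent.N228.I

variable {d : ℕ} {ι ι' ι'' : Type} [Fintype ι] [DecidableEq ι] [Fintype ι'] [DecidableEq ι']
  [Fintype ι''] [DecidableEq ι''] {X : Type} [TopologicalSpace X]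

/-- smooth functions for an atlas -/
def alg (ch : X → OpenPartialHomeomorph X (E (Fin d))) : Alg X where
  Sm := SmA ch
  const _ _ := contDiffOn_const
  add hf hh p := (hf p).add (hh p)
  mul hf hh p := (hf p).mul (hh p)
  comp _ hφ hU hf p := hφ.comp (hf p) fun _ _ => hU _

theorem alg_sm {M : Imm d ι X} {ch : X → OpenPartialHomeomorph X (E (Fin d))} (h : M.ch = ch)
    {f : X → ℝ} : (alg ch).Sm f ↔ M.Sm f := h ▸ Iff.rfl

/-- the point calculus of an immersion -/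
def pt (M : Imm d ι X) {ch : X → OpenPartialHomeomorph X (E (Fin d))} (h : M.ch = ch) (x : X) :
    Pt (alg ch) where
  p := x
  Γ f g := M.pre.gam f g x
  symm _ _ := gam_comm M _ _ x
  add hf hg _ := by
    simp only [Imm.gam_apply, Imm.D_add (((alg_sm h).1 hf).diffAt _) (((alg_sm h).1 hg).diffAt _),
      add_mul, Finset.sum_add_distrib]
  mul hf hg _ := by
    simp only [Imm.gam_apply, Imm.D_mul (((alg_sm h).1 hf).diffAt _) (((alg_sm h).1 hg).diffAt _),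
      Finset.mul_sum, ← Finset.sum_add_distrib]
    exact Finset.sum_congr rfl fun _ _ => by ring
  chain hf _ _ hd := by
    simp only [Imm.gam_apply, Imm.D_comp (((alg_sm h).1 hf).diffAt _) hd, Finset.mul_sum, mul_assoc]
  nonneg _ := Imm.gam_self_nonneg _ _

/-- the next state: nothing is lost on `U` -/
structure Nx (U : Set X) (M : Imm d ι X) (b : ι → X → ℝ) (M' : Imm d ι' X) (b' : ι' → X → ℝ) :
    Prop where
  ch : M'.ch = M.ch
  inj : Injective M.x → Injective M'.x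
  gam : ∀ p ∈ U, ∀ f g, M.Sm f → M.Sm g → M'.pre.gam f g p = M.pre.gam f g p
  eb : ∀ p ∈ U, M.pre.Eb b p ≤ M'.pre.Eb b' p

variable {M : Imm d ι X} {b : ι → X → ℝ} {M' : Imm d ι' X} {b' : ι' → X → ℝ} {M'' : Imm d ι'' X}
  {b'' : ι'' → X → ℝ} {U : Set X} {v m : X → ℝ} {f : ℝ → ℝ}

theorem Nx.refl (U : Set X) (M : Imm d ι X) (b : ι → X → ℝ) : Nx U M b M b :=
  ⟨rfl, id, fun _ _ _ _ _ _ => rfl, fun _ _ => le_rfl⟩

theorem Nx.trans (h : Nx U M b M' b') (h' : Nx U M' b' M'' b'') : Nx U M b M'' b'' :=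
  ⟨h'.ch.trans h.ch, h'.inj ∘ h.inj, fun p hp f g hf hg => (h'.gam p hp f g
    (by rwa [Imm.Sm, h.ch]) (by rwa [Imm.Sm, h.ch])).trans (h.gam p hp f g hf hg),
    fun p hp => (h.eb p hp).trans (h'.eb p hp)⟩

/-- a step with `v` locally constant on `U` -/
theorem exists_nx (hb : ∀ c, M.Sm (b c)) (tb : M.pre.Tan b) (hv : M.Sm v) (hm : M.Sm m) {R : ℝ}
    (hR : ∀ p, |v p| ≤ R) (hf : ContDiff ℝ ∞ f)
    (h : ∀ p ∈ U, (∀ᶠ q in 𝓝 p, v q = v p) ∧ f (v p) = 0 ∧ deriv f (v p) = 0) :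
    ∃ (M' : Imm d (Option (ι × Fin 3)) X) (b' : Option (ι × Fin 3) → X → ℝ),
      Step M b v m f M' b' ∧ Nx U M b M' b' := by
  obtain ⟨M', b', δ, hs, hδ, hx⟩ := exists_step hb tb hv hm hR hf
  refine ⟨M', b', hs, hs.ch, fun hi p q e => hi (PiLp.ext fun a => mul_left_cancel₀ hδ.ne'
    (by rw [← hx, ← hx, e])), fun p hp g k hg hk => ?_, fun p hp => ?_⟩
  · rw [hs.gam_of_grad hv hg hk (gam_ev (h p hp).1 v), (h p hp).2.1]; simp
  · have e1 : vv M.pre v p = 1 := by simp [vv, gam_ev (h p hp).1 v]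
    have e2 : hh M b v p = 0 := (QQ_congr (h p hp).1).trans (QQ_const M b _ p)
    simpa [nf, xd, gam_ev (h p hp).1, e1, e2, (h p hp).2] using hs.le hv p 0

/-- **the oracle `pstep`** -/
theorem o1 [T2Space X] (hb : ∀ c, M.Sm (b c)) (tb : M.pre.Tan b) {om Q σ a : X → ℝ} (ho : M.Sm om)
    (hc : IsCompact {p | om p ≤ 5}) (hQ : M.Sm Q) (hσ : M.Sm σ) (ha : M.Sm a) {κ z s u0 ε : ℝ}
    (hκ : 0 < κ) (Q0 : ∀ x, κ ≤ Q x) (hz : 0 ≤ z) (σ0 : ∀ x, 0 ≤ σ x ∧ σ x ≤ s)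
    (h1 : ∀ x, 1 ≤ om x → σ x = 0 ∧ a x ≤ 0) (hu : 0 < u0) (hε : 0 < ε) :
    ∃ (v m : X → ℝ) (M' : Imm d (Option (ι × Fin 3)) X) (b' : Option (ι × Fin 3) → X → ℝ),
      Step M b v m (cq z) M' b' ∧ Nx {p | 5 ≤ om p} M b M' b' ∧ M.Sm v ∧ ∀ x, 0 ≤ v x ∧
      (u0 + v x) ^ 2 ≤ u0 ^ 2 + 4 * s ∧ (5 ≤ om x → v x = 0) ∧ (A.cw * M.pre.gam om om x ≤ κ →
        ∀ j, 0 ≤ j → M.pre.gam Q Q x ≤ Q x ^ 3 / 81 → M.pre.gam σ σ x ≤ j * σ x →
          Real.exp (z * v x ^ 2 / 2) * (M.pre.Eb b x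
            + slow (u0 + v x) (√(1 + M.pre.gam v v x)) (Q x) (σ x)
              ((u0 + v x) ^ 2 / 4 - u0 ^ 2 / 4 - σ x) j (a x) (M.pre.gam v a x)
            + A.zg d z (u0 + v x) (√(1 + M.pre.gam v v x)) (v x) (a x) - ε) ≤ M'.pre.Eb b' x) := by
  have sg : ContDiff ℝ ∞ fun t : ℝ => (5 - t) / 4 := by fun_prop
  have hθ := ho.comp sg
  have hc' : IsCompact {p | 0 ≤ (5 - om p) / 4} := by
    convert hc using 3; constructor <;> intro <;> linarith
  obtain ⟨C, hC⟩ := hc'.exists_bound_of_continuousOn ha.continuous.continuousOn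
  have s0 := le_max_right s 0
  obtain ⟨η, η0, η1, η2⟩ : ∃ η, 0 < η ∧ η ≤ 1 ∧ (2 / u0 + |C| * (u0 + max s 0 + 1) + 1) * η ≤ ε :=
    ⟨min 1 (ε / (2 / u0 + |C| * (u0 + max s 0 + 1) + 1)), by positivity, min_le_left _ _,
      (le_div_iff₀' (by positivity)).1 (min_le_right _ _)⟩
  obtain ⟨y, v, y0, y1, hv, H⟩ := ps_sol hb hθ hc' hQ hσ hκ Q0
    (fun p => ⟨(σ0 p).1, (σ0 p).2.trans (le_max_left s 0)⟩)
    (fun p hp => (h1 p (by linarith)).1) hu s0 η0
  have v0 := fun p => (H p).1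
  have v1 : ∀ p, u0 + v p ≤ u0 + max s 0 + 1 := fun p =>
    le_of_sq_le_sq ((H p).2.1.trans (by nlinarith [sq_nonneg (max s 0 - 1)])) (by positivity)
  have sq := hQ.mul (hθ.comp (contDiff_wq y0 y1))
  obtain ⟨M', b', hs, hn⟩ := exists_nx (U := {p | 5 ≤ om p}) hb tb hv
    (sm_mm hb sq hσ ha hv v0 hu) (R := max s 0 + 1)
    (fun p => abs_le.2 ⟨by linarith [v0 p], by linarith [v1 p]⟩) (contDiff_cq z) fun p hp => by
      have h0 : (5 - om p) / 4 < 1 / 16 := by linarith [show 5 ≤ om p from hp]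
      rw [(H p).2.2.1 h0.le, deriv_cq]
      exact ⟨(ev_lt hθ h0).mono fun q hq => (H q).2.2.1 hq.le, by simp [cq], by simp⟩
  refine ⟨v, _, M', b', hs, hn, hv, fun x => ⟨v0 x, ?_, fun h => (H x).2.2.1 (by linarith),
    fun k1 j j0 k2 k3 => le_trans (mul_le_mul_of_nonneg_left ?_ (Real.exp_pos _).le)
      (hs.gen_zg sq hσ ha hv v0 hu hz x)⟩⟩
  · simpa only [max_eq_left ((σ0 x).1.trans (σ0 x).2)] using (H x).2.1
  have q1 := fun p => one_le_wq y0 y1 ((5 - om p) / 4)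
  have sl := fun j j0 => slow_le X _ (pt M rfl x) _ σ a v u0 j sq hσ ha hv
    (fun p => mul_pos (hκ.trans_le (Q0 p)) (one_pos.trans_le (q1 p))) (fun p => (σ0 p).1) v0 hu j0
    (gam_wall hθ hQ y0 y1 (hκ.le.trans (Q0 x)) k2 (by
      rw [gam_comp_self ho (((hasDerivAt_id' _).const_sub 5).div_const 4)]
      rw [A.cw] at k1
      linarith [Q0 x]))
  simp only [pt] at sl
  have e1 : (2 / u0 + |a x| * (u0 + v x)) *
      |dfc M.pre b (fun q => Q q * wq y ((5 - om q) / 4)) σ v u0 x|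
      + dfc M.pre b (fun q => Q q * wq y ((5 - om q) / 4)) σ v u0 x ^ 2 ≤ ε := by
    rcases le_or_gt 0 ((5 - om x) / 4) with h | h
    · have a1 := mul_le_mul (add_le_add_right (mul_le_mul ((hC x h).trans (le_abs_self C)) (v1 x)
        (by linarith [v0 x]) (abs_nonneg _)) (2 / u0)) (H x).2.2.2.1 (abs_nonneg _) (by positivity)
      rw [Real.norm_eq_abs] at a1
      rw [← sq_abs]
      nlinarith [(H x).2.2.2.1, abs_nonneg
        (dfc M.pre b (fun q => Q q * wq y ((5 - om q) / 4)) σ v u0 x)]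
    · rw [(H x).2.2.2.2 (by linarith)]; simpa using hε.le
  rcases le_total 1 (om x) with h | h
  · have a1 := sl 0 le_rfl (by simpa only [(h1 x h).1, mul_zero] using k3)
    rw [(h1 x h).1] at a1 ⊢
    have a2 := slow_mono (U := u0 + v x) (G := M.pre.gam v a x)
      (r := (u0 + v x) ^ 2 / 4 - u0 ^ 2 / 4 - 0) (Real.one_le_sqrt.2 (le_add_of_nonneg_right
        (Imm.gam_self_nonneg (M := M) v x))) (hκ.le.trans (Q0 x))
      (le_mul_of_one_le_right (hκ.le.trans (Q0 x)) (q1 x)) (by nlinarith [v0 x]) j0 (h1 x h).2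
    linarith
  · have a1 := sl j j0 k3
    rw [wq_out (Or.inr (by linarith)), mul_one] at a1
    linarith

end Crest.Agent.N228.I

end
end

-- ▼ part N228/I/Buf
section

/-! # Row 228 (helper72): the sharp buffer, localised behind free walls -/

set_option autoImplicit false
set_option linter.unusedSectionVars false
open Set Filter Topology Function
open scoped ContDiff
open Crest.Agent.N222 Crest.Agent.N228.J Crest.Agent.N222.A Crest.Agent.N228.Cf

noncomputable section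

namespace Crest.Agent.N228.I

variable {d : ℕ} {ι : Type} [Fintype ι] [DecidableEq ι] {X : Type} [TopologicalSpace X]
  [T2Space X] {M : Imm d ι X} {b : ι → X → ℝ} {θ ψ ρ1 ρ3 : X → ℝ}

/-- the gain of the step with `m = W (h - G)` -/
def bgain (M : Imm d ι X) (b : ι → X → ℝ) (v G : X → ℝ) (p : X) : ℝ :=
  G p ^ 2 + 2 * xd M v G p - (ww M.pre v p * (hh M b v p - G p)) ^ 2

/-- the data of a buffer: `ψ` goes from `-1` to `1`, `ρ1` varies where `ψ = -1`, `ρ3` where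
`ψ = 1`; `θ` localises (on both sides) -/
structure BufD (M : Imm d ι X) (θ ψ ρ1 ρ3 : X → ℝ) : Prop where
  sθ : M.Sm θ
  sψ : M.Sm ψ
  s1 : M.Sm ρ1
  s3 : M.Sm ρ3
  cpt : IsCompact {p | 0 ≤ θ p}
  mem : ∀ p, ψ p ∈ Icc (-1 : ℝ) 1 ∧ ρ1 p ∈ Icc (0 : ℝ) 1 ∧ ρ3 p ∈ Icc (0 : ℝ) 1
  k0 : ∀ p, θ p < 2 → ψ p = -1 ∧ ρ1 p = 0 ∨ ψ p = 1 ∧ ρ3 p = 1
  k1 : ∀ p, ψ p ≠ -1 → ∀ᶠ q in 𝓝 p, ρ1 q = 1
  k3 : ∀ p, ψ p ≠ 1 → ∀ᶠ q in 𝓝 p, ρ3 q = 0

theorem BufD.ev (D : BufD M θ ψ ρ1 ρ3) {p : X} (hp : θ p < 2) :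
    ∀ᶠ q in 𝓝 p, ψ q = ψ p ∧ ρ1 q = ρ1 p ∧ ρ3 q = ρ3 p := by
  rcases D.k0 p hp with h | h
  · filter_upwards [ev_lt D.sθ hp, ev_lt D.sψ (s := 0) (by rw [h.1]; norm_num),
      D.k3 p (by rw [h.1]; norm_num)] with q h1 h2 h3
    have h4 := (D.k0 q h1).resolve_right fun h => by linarith [h.1]
    rw [h4.1, h4.2, h.1, h.2, h3, (D.k3 p (by rw [h.1]; norm_num)).self_of_nhds]
    exact ⟨rfl, rfl, rfl⟩
  · filter_upwards [ev_lt D.sθ hp, ev_gt D.sψ (s := 0) (by rw [h.1]; norm_num),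
      D.k1 p (by rw [h.1]; norm_num)] with q h1 h2 h3
    have h4 := (D.k0 q h1).resolve_left fun h => by linarith [h.1]
    rw [h4.1, h4.2, h.1, h.2, h3, (D.k1 p (by rw [h.1]; norm_num)).self_of_nhds]
    exact ⟨rfl, rfl, rfl⟩

/-- the barriers -/
theorem BufD.sol (D : BufD M θ ψ ρ1 ρ3) (hb : ∀ a, M.Sm (b a)) {T : ℝ} (hT : 0 < T) :
    ∃ C, 0 < C ∧ ∀ (S : ℝ → ℝ) (h : X → ℝ) (K δ : ℝ), ContDiff ℝ ∞ S → (∀ t, 0 < deriv S t) →
      M.Sm h → (∀ p, |h p| ≤ K ∧ (ψ p = 1 → h p = K) ∧ (ψ p = -1 → h p = -K)) → S 0 = -K →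
      S (7 * T) = K → C - K ≤ S (T / 2) → S (13 * T / 2) ≤ K - C → 0 < δ →
      ∃ (y : ℝ) (u : X → ℝ), 0 < y ∧ y ≤ 1 ∧ M.Sm u ∧ ∀ p,
        QQ M b u p = wq y (θ p) * (S (u p) - h p) ∧
        ρ3 p * (7 * T - T / 2 * ct 16 (-9) (θ p)) + -δ ≤ u p ∧
        u p ≤ T / 2 * ct 16 (-9) (θ p) * (1 - ρ1 p) + 7 * T * ρ1 p + δ := by
  have sβ := (Imm.sm_const (T / 2)).mul (D.sθ.comp (contDiff_ct 16 (-9)))
  have sm := D.s3.mul ((Imm.sm_const (7 * T)).sub sβ)
  have sp := (sβ.mul ((Imm.sm_const 1).sub D.s1)).add ((Imm.sm_const (7 * T)).mul D.s1)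
  have z : ∀ p, θ p < 9 / 16 → ∀ᶠ q in 𝓝 p, ρ3 q * (7 * T - T / 2 * ct 16 (-9) (θ q)) =
      7 * T * ρ3 p ∧ T / 2 * ct 16 (-9) (θ q) * (1 - ρ1 q) + 7 * T * ρ1 q = 7 * T * ρ1 p :=
    fun p hp => ((ev_lt D.sθ hp).and (D.ev (by linarith))).mono fun q hq => by
      rw [hq.2.2.1, hq.2.2.2, ct_zero (by linarith [hq.1])]; constructor <;> ring
  obtain ⟨C1, c1, h1⟩ := exists_bd D.cpt (sm_QQ hb sm).continuous fun p hp => by
    rw [QQ_congr ((z p (by linarith)).mono fun q hq => hq.1), QQ_const]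
  obtain ⟨C2, -, h2⟩ := exists_bd D.cpt (sm_QQ hb sp).continuous fun p hp => by
    rw [QQ_congr ((z p (by linarith)).mono fun q hq => hq.2), QQ_const]
  refine ⟨max C1 C2, lt_max_of_lt_left c1, fun S h K δ hS S0 hh hK e0 e1 e2 e3 hδ => ?_⟩
  have m1 := le_max_left C1 C2
  have m2 := le_max_right C1 C2
  have mo := strictMono_of_deriv_pos S0
  have m3 := min_le_left (S δ + K) (K - S (7 * T - δ))
  have m4 := min_le_right (S δ + K) (K - S (7 * T - δ))
  obtain ⟨y, y0, y1, hy⟩ := exists_wq (m := min (S δ + K) (K - S (7 * T - δ))) (C := max C1 C2)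
    (lt_min (by linarith [mo hδ]) (by linarith [mo (sub_lt_self (7 * T) hδ)]))
  have q1 := fun p => one_le_wq y0 y1 (θ p)
  have a0 := fun p => mul_nonneg (half_pos hT).le (ct_nonneg 16 (-9) (θ p))
  have a2 := fun p => mul_le_of_le_one_right (half_pos hT).le (ct_le_one 16 (-9) (θ p))
  have a1 : ∀ p, T / 2 * ct 16 (-9) (θ p) ≤
      T / 2 * ct 16 (-9) (θ p) * (1 - ρ1 p) + 7 * T * ρ1 p := fun p => by
    nlinarith [a2 p, (D.mem p).2.1.1]
  have a3 : ∀ p, ρ3 p * (7 * T - T / 2 * ct 16 (-9) (θ p)) ≤ 7 * T - T / 2 * ct 16 (-9) (θ p) :=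
    fun p => mul_le_of_le_one_left (by linarith [a2 p]) (D.mem p).2.2.2
  refine (exists_sol hb (N228.J.good_PhiS (S := fun z : ℝ × ℝ => S z.2)
    (hS.comp contDiff_snd) (C := univ) fun _ _ => S0)
    (c := fun p => (wq y (θ p), (0 : ℝ), h p))
    ((D.sθ.comp (contDiff_wq y0 y1)).prodMk ((Imm.sm_const _).prodMk hh))
    (fun p => ⟨one_pos.trans_le (q1 p), mem_univ _⟩) (sm.add (Imm.sm_const (-δ))).continuous
    (sp.add (Imm.sm_const δ)).continuous (fun p => ⟨mem_univ _, mem_univ _, ?_⟩) (fun p => ?_)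
    fun p => ?_).elim fun u H => ⟨y, u, y0, y1, H⟩
  · by_cases hp : ψ p = 1
    · rw [(D.k1 p (by rw [hp]; norm_num)).self_of_nhds]
      linarith [a0 p, a3 p]
    · rw [(D.k3 p hp).self_of_nhds]
      linarith [a0 p, a1 p]
  · have low : ∀ s, (∀ᶠ q in 𝓝 p, ρ3 q * (7 * T - T / 2 * ct 16 (-9) (θ q)) = s) →
        S (s + -δ) ≤ h p → Sub M b (N228.J.PhiS fun z : ℝ × ℝ => S z.2)
          (fun p => (wq y (θ p), (0 : ℝ), h p))
          (fun q => ρ3 q * (7 * T - T / 2 * ct 16 (-9) (θ q)) + -δ) p := fun s k1 k2 =>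
      sub_ev hb (k1.mono fun q hq => by rw [hq])
        (mul_nonpos_of_nonneg_of_nonpos (zero_le_one.trans (q1 p)) (sub_nonpos.2 k2))
    by_cases hp : ψ p = 1
    · rcases lt_or_ge (θ p) (9 / 16) with h3 | h3
      · refine low _ ((z p h3).mono fun q hq => hq.1) ?_
        rw [(hK p).2.1 hp, ← e1]
        exact mo.monotone (by nlinarith [(D.mem p).2.2.2])
      refine sub_of_sm hb (sm.add (Imm.sm_const _)) ?_
      rw [QQ_add_const]
      refine le_trans ?_ (abs_le.1 (h1 p)).1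
      simp only [N228.J.PhiS, (hK p).2.1 hp]
      rcases le_total (θ p) (5 / 8) with h4 | h4
      · rw [wq_top h3 h4]
        have := mo.monotone (show ρ3 p * (7 * T - T / 2 * ct 16 (-9) (θ p)) + -δ ≤ 7 * T - δ by
          linarith [a0 p, a3 p])
        nlinarith [sq_nonneg y⁻¹]
      · have := a3 p
        rw [ct_one (by linarith)] at this ⊢
        nlinarith [q1 p, mo.monotone (show ρ3 p * (7 * T - T / 2 * 1) + -δ ≤ 13 * T / 2 by
          linarith)]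
    · exact low 0 ((D.k3 p hp).mono fun q hq => by rw [hq, zero_mul]) (by
        linarith [(abs_le.1 (hK p).1).1, mo (show 0 + -δ < 0 by linarith)])
  · have up : ∀ s, (∀ᶠ q in 𝓝 p, T / 2 * ct 16 (-9) (θ q) * (1 - ρ1 q) + 7 * T * ρ1 q = s) →
        h p ≤ S (s + δ) → Sup M b (N228.J.PhiS fun z : ℝ × ℝ => S z.2)
          (fun p => (wq y (θ p), (0 : ℝ), h p))
          (fun q => T / 2 * ct 16 (-9) (θ q) * (1 - ρ1 q) + 7 * T * ρ1 q + δ) p := fun s k1 k2 =>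
      sup_ev hb (k1.mono fun q hq => by rw [hq])
        (mul_nonneg (zero_le_one.trans (q1 p)) (sub_nonneg.2 k2))
    by_cases hp : ψ p = -1
    · rcases lt_or_ge (θ p) (9 / 16) with h3 | h3
      · refine up _ ((z p h3).mono fun q hq => hq.2) ?_
        rw [(hK p).2.2 hp, ← e0]
        exact mo.monotone (by nlinarith [(D.mem p).2.1.1])
      refine sup_of_sm hb (sp.add (Imm.sm_const δ)) ?_
      rw [QQ_add_const]
      refine (abs_le.1 (h2 p)).2.trans ?_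
      simp only [N228.J.PhiS, (hK p).2.2 hp]
      rcases le_total (θ p) (5 / 8) with h4 | h4
      · rw [wq_top h3 h4]
        have := mo.monotone (show δ ≤ T / 2 * ct 16 (-9) (θ p) * (1 - ρ1 p) + 7 * T * ρ1 p + δ by
          linarith [a0 p, a1 p])
        nlinarith [sq_nonneg y⁻¹]
      · have := a1 p
        rw [ct_one (by linarith)] at this ⊢
        nlinarith [q1 p, mo.monotone (show T / 2 ≤ T / 2 * 1 * (1 - ρ1 p) + 7 * T * ρ1 p + δ by
          linarith)]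
    · exact up (7 * T) ((D.k1 p hp).mono fun q hq => by rw [hq]; ring) (by
        linarith [(abs_le.1 (hK p).1).2, mo (lt_add_of_pos_right (7 * T) hδ)])

/-- **the sharp buffer**: `v` jumps from `≤ T` to `≥ 5 T` at the price `π² Γ(ψ, ψ)`; it is
constant (`0` or `7 T`) where `θ ≤ 1 / 16` -/
theorem BufD.buf (D : BufD M θ ψ ρ1 ρ3) (hb : ∀ a, M.Sm (b a)) {c T ε : ℝ} (hc : 0 < c)
    (hT : 0 < T) (hε : 0 < ε) : ∃ v G : X → ℝ, M.Sm v ∧ M.Sm G ∧ ∀ p, |v p| ≤ 8 * T ∧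
      (θ p ≤ 1 / 16 → v p = 7 * T / 2 * (1 + ψ p) ∧ G p = 0) ∧ (ρ1 p = 0 → v p ≤ T) ∧
      (ρ3 p = 1 → 5 * T ≤ v p) ∧ ∀ r, 0 ≤ r → r ≤ 1 →
        Real.pi ^ 2 * M.pre.gam ψ ψ p ≤ (r * c) ^ 2 → -(r * c ^ 2) - ε ≤ bgain M b v G p := by
  obtain ⟨C, C0, H⟩ := D.sol hb hT
  obtain ⟨A, A0, hA⟩ := exists_wall_bd D.sθ D.cpt
  obtain ⟨K, K1, K2⟩ : ∃ K, C + 1 ≤ K ∧ A + 2 ≤ K := ⟨max _ _, le_max_left _ _, le_max_right _ _⟩
  have K0 : 0 < K := by linarith
  obtain ⟨g, sg, g1, g2, hg⟩ := exists_tan hc K0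
  have sh : M.Sm fun p => g (ψ p) := D.sψ.comp_on sg fun p => (D.mem p).1
  have ge : ∀ p, θ p < 2 → ∀ᶠ q in 𝓝 p, g (ψ q) = g (ψ p) := fun p hp =>
    (D.ev hp).mono fun q hq => by rw [hq.1]
  obtain ⟨B, B0, hB⟩ := exists_bd D.cpt (sh.gam sh).continuous fun p hp =>
    gam_ev (ge p (by linarith)) _
  obtain ⟨η, η0, η1, η2⟩ : ∃ η, 0 < η ∧ η ≤ 1 ∧ η * (2 * K) ≤ ε / 2 :=
    ⟨min 1 (ε / 2 / (2 * K)), by positivity, min_le_left _ _,
      (le_div_iff₀ (by positivity)).1 (min_le_right _ _)⟩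
  obtain ⟨A', a1, a2⟩ : ∃ A', A ≤ A' ∧ B ≤ ε / 2 * A' :=
    ⟨max A (B / (ε / 2)), le_max_left _ _, (div_le_iff₀' (half_pos hε)).1 (le_max_right _ _)⟩
  obtain ⟨S, sS, S0, S1, e0, e1, e2, e3⟩ := exists_prof hT (A0.trans_le a1) η0 (K := K)
    (by linarith)
  have cp : ∀ σ : ℝ, σ ^ 2 = 1 → IsCompact ({p | 1 / 16 ≤ θ p ∧ θ p ≤ 1 / 8} ∩ {p | 0 < σ * ψ p}) :=
    fun σ hσ => by
      convert (isCompact_lev D.sθ D.cpt (s := 1 / 16) (by norm_num) (1 / 8)).inter_right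
        (isClosed_le continuous_const (continuous_const.mul D.sψ.continuous) :
          IsClosed {p | 0 ≤ σ * ψ p}) using 1
      refine Set.ext fun p => and_congr_right fun hp => ⟨fun h => le_of_lt (α := ℝ) h,
        fun h => lt_of_le_of_ne (α := ℝ) h ?_⟩
      rcases D.k0 p (by linarith [hp.2]) with k | k <;> rw [k.1] <;> intro h' <;> nlinarith
  have lo := fun (σ s : ℝ) (hσ : σ ^ 2 = 1) (hs : S s = σ * K) => loc_on hb
    (N228.J.good_PhiS (S := fun z : ℝ × ℝ => S z.2) (sS.comp contDiff_snd) (C := univ)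
      fun _ _ => S0) D.sθ (isOpen_lt continuous_const (continuous_const.mul D.sψ.continuous))
    (cp σ hσ) (Imm.sm_const ((1 : ℝ), (0 : ℝ), σ * K)) (mem_univ s)
    (fun p _ _ => ⟨⟨one_pos, mem_univ _⟩, by simp [N228.J.PhiS, hs]⟩)
    (Real.sqrt_pos.2 (half_pos hε))
  obtain ⟨δ1, δ10, hδ1⟩ := lo (-1) 0 (by norm_num) (by rw [e0]; ring)
  obtain ⟨δ2, δ20, hδ2⟩ := lo 1 (7 * T) (by norm_num) (by rw [e1]; ring)
  obtain ⟨δ, δ0, m1, m2, m3⟩ : ∃ δ, 0 < δ ∧ δ < δ1 ∧ δ < δ2 ∧ δ ≤ T / 2 :=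
    ⟨min (min δ1 δ2 / 2) (T / 2), by positivity, (min_le_left _ _).trans_lt
      ((half_lt_self (by positivity)).trans_le (min_le_left _ _)), (min_le_left _ _).trans_lt
      ((half_lt_self (by positivity)).trans_le (min_le_right _ _)), min_le_right _ _⟩
  obtain ⟨y, u, y0, y1, hu, Hu⟩ := H S _ K δ sS S0 sh
    (fun p => ⟨(hg _ (D.mem p).1).1, fun h => by rw [h, g1], fun h => by rw [h, g2]⟩) e0 e1
    (by linarith) (by linarith) δ0
  have b0 := fun p => mul_nonneg (half_pos hT).le (ct_nonneg 16 (-9) (θ p))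
  have b1 := fun p => mul_le_of_le_one_right (half_pos hT).le (ct_le_one 16 (-9) (θ p))
  have u0 : ∀ p, -δ ≤ u p := fun p => by
    linarith [(Hu p).2.1, mul_nonneg (D.mem p).2.2.1 (sub_nonneg.2 ((b1 p).trans
      (show T / 2 ≤ 7 * T by linarith)))]
  have u1 : ∀ p, u p ≤ 7 * T + δ := fun p => by
    nlinarith [(Hu p).2.2, b1 p, (D.mem p).2.1.2]
  have sq := D.sθ.comp (contDiff_wq y0 y1)
  set v : X → ℝ := fun q => 7 * T / 2 * (1 + ψ q) + ct 16 (-1) (θ q) * (u q - 7 * T / 2 * (1 + ψ q))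
    with hv
  have ss := (Imm.sm_const (7 * T / 2)).mul ((Imm.sm_const 1).add D.sψ)
  have sv : M.Sm v := ss.add ((D.sθ.comp (contDiff_ct _ _)).mul (hu.sub ss))
  have vm : ∀ p lo hi, lo ≤ u p → u p ≤ hi → (θ p < 2 → lo ≤ 7 * T / 2 * (1 + ψ p) ∧
      7 * T / 2 * (1 + ψ p) ≤ hi) → lo ≤ v p ∧ v p ≤ hi := fun p lo hi h1 h2 h3 => by
    rcases lt_or_ge (θ p) 2 with h | h
    · exact mem_cut ordConnected_Icc (h3 h) ⟨h1, h2⟩ (ct_nonneg _ _ _) (ct_le_one _ _ _)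
    · simp only [hv, ct_one (a := 16) (c := -1) (t := θ p) (by linarith)]
      constructor <;> linarith
  have hd : ∀ p, |dft M b (N228.J.PhiS fun z : ℝ × ℝ => S z.2)
      (fun p => (wq y (θ p), (0 : ℝ), g (ψ p))) v p| ≤ √(ε / 2) := fun p => by
    rcases le_or_gt (θ p) (1 / 8) with h | h
    · rcases D.k0 p (by linarith) with k | k
      · refine hδ1 _ u v hu (fun q hq h => ?_) p (by simp [k.1]) h
        have k := (D.k0 q (by linarith)).resolve_right fun k => by simp [k.1] at hq; linarith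
        have := (Hu q).2.2
        rw [k.2, ct_zero (by linarith)] at this
        exact ⟨mem_univ _, (Hu q).1, by rw [wq_out (Or.inl h.le), k.1, g2, neg_one_mul],
          abs_lt.2 ⟨by linarith [u0 q], by linarith⟩, by simp [hv, k.1]⟩
      · refine hδ2 _ u v hu (fun q hq h => ?_) p (by simp [k.1]) h
        have k := (D.k0 q (by linarith)).resolve_left fun k => by simp [k.1] at hq; linarith
        have := (Hu q).2.1
        rw [k.2, ct_zero (by linarith)] at this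
        exact ⟨mem_univ _, (Hu q).1, by rw [wq_out (Or.inl h.le), k.1, g1, one_mul],
          abs_lt.2 ⟨by linarith, by linarith [u1 q]⟩, by simp only [hv, k.1]; ring⟩
    · rw [hv, dft_core D.sθ h (Hu p).1, abs_zero]
      exact Real.sqrt_nonneg _
  refine ⟨v, fun p => wq y (θ p) * (S (v p) - g (ψ p)), sv, sq.mul ((sv.comp sS).sub sh),
    fun p => ⟨abs_le.2 (vm p _ _ (by linarith [u0 p]) (by linarith [u1 p]) fun _ => ?_),
      fun hp => ?_, fun hp => (vm p (-δ) T (u0 p) ?_ fun h => ?_).2,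
      fun hp => (vm p (5 * T) (8 * T) ?_ (by linarith [u1 p]) fun h => ?_).1,
      fun r r0 r1 hr => ?_⟩⟩
  · constructor <;> nlinarith [(D.mem p).1.1, (D.mem p).1.2]
  · have : v p = 7 * T / 2 * (1 + ψ p) := by
      simp only [hv, ct_zero (a := 16) (c := -1) (t := θ p) (by linarith), zero_mul, add_zero]
    refine ⟨this, ?_⟩
    simp only [this]
    rcases D.k0 p (by linarith) with k | k
    · rw [k.1, g2, add_neg_cancel, mul_zero, e0, sub_self, mul_zero]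
    · rw [k.1, g1, show 7 * T / 2 * (1 + 1) = 7 * T by ring, e1, sub_self, mul_zero]
  · have := (Hu p).2.2
    rw [hp] at this
    linarith [b1 p]
  · rw [((D.k0 p h).resolve_right fun k => zero_ne_one
      (hp.symm.trans (D.k1 p (by rw [k.1]; norm_num)).self_of_nhds)).1]
    constructor <;> linarith
  · have := (Hu p).2.1
    rw [hp] at this
    linarith [b1 p]
  · rw [((D.k0 p h).resolve_left fun k => one_ne_zero
      (hp.symm.trans (D.k3 p (by rw [k.1]; norm_num)).self_of_nhds)).1]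
    constructor <;> linarith
  have h1 : (ww M.pre v p * (hh M b v p - wq y (θ p) * (S (v p) - g (ψ p)))) ^ 2 ≤ ε / 2 := by
    rw [← Real.sq_sqrt (half_pos hε).le]
    exact sq_le_sq' (abs_le.1 (hd p)).1 (abs_le.1 (hd p)).2
  have h2 := mul_nonneg r0 (sq_nonneg c)
  obtain ⟨x0, x1, x2⟩ := xi_mem M v p
  rw [bgain, xd_rhs sv sq sh sS]
  rcases lt_or_ge (θ p) 2 with h3 | h3
  · rw [xd_ev (ge p h3)]
    have := num_wall (y := S (v p) - g (ψ p)) (one_le_wq y0 y1 (θ p)) x0 x1 x2 (S0 (v p)).le A0.le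
      (xd_sq_le M v _ p) (hA y y0 y1 p) ((S1 (v p)).imp a1.trans fun h => by
        obtain ⟨h4, h5⟩ := abs_le.1 h
        rcases D.k0 p h3 with k | k
        · rw [k.1, g2]; nlinarith [sq_nonneg (A - 1)]
        · rw [k.1, g1]; nlinarith [sq_nonneg (A - 1)])
    linarith
  · rw [xd_ev (f := fun p => wq y (θ p)) (s := 1) ((ev_gt D.sθ (one_lt_two.trans_le h3)).mono
      fun q hq => wq_out (Or.inr hq.le)), wq_out (Or.inr (by linarith))] at *
    rcases S1 (v p) with h | h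
    · have := num_stiff (y := S (v p) - g (ψ p)) x0 x2 (half_pos hε) (A0.trans_le a1).le
        ((xd_sq_le M v _ p).trans (mul_le_mul_of_nonneg_left ((le_abs_self _).trans (hB p)) x0))
        a2 h
      linarith
    · obtain ⟨k1, e, k2, k3, k4⟩ := hg _ (D.mem p).1
      have := num_soft (x0.trans x2) (S0 (v p)).le hc k3 h k1 ((xd_sq_le M v _ p).trans
        ((mul_le_of_le_one_left (Imm.gam_self_nonneg _ _) x1).trans_eq
          (gam_comp_self D.sψ k2))) k4 r0 r1 hr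
      linarith

end Crest.Agent.N228.I

end
end

-- ▼ part N228/I/O2
section

/-! # Row 228 (helper11): the oracle `buf` of `N228.A.Wd` for immersed manifolds with a drift -/

set_option autoImplicit false
set_option linter.unusedSectionVars false
open Set Filter Topology Function
open scoped ContDiff
open Crest.Agent.N222 Crest.Agent.N228.J Crest.Agent.N222.A Crest.Agent.N228.Cf

noncomputable section

namespace Crest.Agent.N228.I

variable {d : ℕ} {ι ι' : Type} [Fintype ι] [DecidableEq ι] [Fintype ι'] [DecidableEq ι']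
  {X : Type} [TopologicalSpace X] {M : Imm d ι X} {b : ι → X → ℝ}

theorem D_ev {w : X → ℝ} {p : X} {s : ℝ} (h : ∀ᶠ q in 𝓝 p, w q = s) (a : ι) :
    M.pre.D a w p = 0 := by
  rw [Imm.D_congr (g := fun _ => s) h, Imm.D_const]

theorem stepD_zero {v g : X → ℝ} {p : X} (h : ∀ a, M.pre.D a g p = 0) (c : Option ι) :
    (stepS M.pre v).D c g p = 0 := by
  cases c <;>
    simp [stepS, Pre.graph, Pre.dir, Finset.sum_apply, h]

/-- nothing changes where `v` vanishes identically -/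
theorem step_far {v m : X → ℝ} {f : ℝ → ℝ} {M' : Imm d ι' X} {b' : ι' → X → ℝ}
    (h : Step M b v m f M' b') {p : X} (hv : ∀ᶠ q in 𝓝 p, v q = 0) (hm0 : m p = 0) (f0 : f 0 = 0) :
    (∀ g k, M'.pre.gam g k p = M.pre.gam g k p) ∧ M'.pre.Eb b' p = M.pre.Eb b p := by
  have h1 : ∀ᶠ q in 𝓝 p, ∀ a, M.pre.D a v q = 0 :=
    hv.eventually_nhds.mono fun q hq a => D_ev hq a
  have h2 : ∀ᶠ q in 𝓝 p, vv M.pre v q = 1 := h1.mono fun q hq => by
    simp [vv, Imm.gam_apply, hq]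
  have h3 : ∀ a, ∀ᶠ q in 𝓝 p, M.pre.X v (vv M.pre v) a q = 0 := fun a => h1.mono fun q hq => by
    simp [Pre.X, hq]
  have h4 : hm M v p = 0 := by
    simp only [hm, Pre.dv, Finset.sum_apply]
    exact Finset.sum_eq_zero fun a _ => D_ev (h3 a) a
  have h5 : ∀ g, xd M v g p = 0 := fun g => by rw [xd, gam_ev hv, mul_zero]
  have h6 : hh M b v p = 0 := by
    have := h4
    simp only [hm] at this
    simp [hh, Pre.hb, this, Finset.sum_apply, fun a => (h3 a).self_of_nhds]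
  have h7 : bb M v p = 0 := by
    have k1 : ∀ a e, (stepS M.pre v).D a (M.pre.nu v (vv M.pre v) e) p = 0 := fun a e =>
      stepD_zero (fun a' => by
        cases e with
        | none => exact D_ev h2 a'
        | some e => exact D_ev (s := 0) ((h3 e).mono fun q hq => by simp [Pre.nu, hq]) a') a
    have k2 : ∀ a, (stepS M.pre v).D a (vv M.pre v) p = 0 := stepD_zero fun a => D_ev h2 a
    simp only [stepS] at k1 k2
    simp [bb, Pre.a2, Pre.A, Pre.gam, stepS, Finset.sum_apply, k1, k2]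
  have h0 : v p = 0 := hv.self_of_nhds
  refine ⟨fun g k => ?_, ?_⟩
  · rw [h.gam, h0, f0]
    simp [stepS, Pre.graph, Pre.gam, Pre.dir, Finset.sum_apply, fun a => (h3 a).self_of_nhds]
  · rw [h.eb, h0, f0, h7, h4, h5, nf, h6, hm0, h2.self_of_nhds]
    simp

/-- the conformal profile of the buffer -/
theorem exists_expand (n : ℝ) {lam ε : ℝ} (hl : 1 ≤ lam) (hε : 0 < ε) :
    ∃ (T : ℝ) (f : ℝ → ℝ), 0 < T ∧ 1 ≤ ε * T ^ 2 ∧ ContDiff ℝ ∞ f ∧ ∀ t,
      (t ≤ T → f t = 0) ∧ (2 * T ≤ t → Real.exp (-(2 * f t)) = lam⁻¹) ∧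
      lam⁻¹ ≤ Real.exp (-(2 * f t)) ∧ Real.exp (-(2 * f t)) ≤ 1 ∧
      n * deriv f t ^ 2 + 2 * |deriv (deriv f) t| ≤ ε := by
  have c1 : ContDiff ℝ ∞ (deriv cut) := (contDiff_infty_iff_deriv.1 Real.smoothTransition.contDiff).2
  have c2 : HasCompactSupport (deriv cut) :=
    HasCompactSupport.intro (isCompact_Icc (a := (0 : ℝ)) (b := 1)) fun s hs =>
      cut_deriv_zero (by
        simp only [mem_Icc, not_and_or, not_le] at hs
        exact hs.imp le_of_lt le_of_lt)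
  obtain ⟨C, hC⟩ := (contDiff_infty_iff_deriv.1 c1).2.continuous.bounded_above_of_compact_support
    c2.deriv
  set a := Real.log lam / 2 with ha
  have a0 : 0 ≤ a := div_nonneg (Real.log_nonneg hl) two_pos.le
  have l0 : 0 < lam := one_pos.trans_le hl
  have C0 : 0 ≤ C := (norm_nonneg _).trans (hC 0)
  set B := |n| * (a * cc) ^ 2 + 2 * (a * C) + 1 with hB
  have B1 : 1 ≤ B := le_add_of_nonneg_left (by positivity)
  obtain ⟨T, T0, hT⟩ : ∃ T : ℝ, 0 < T ∧ B ≤ ε * T ^ 2 :=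
    ⟨√(B / ε), Real.sqrt_pos.2 (by positivity), by
      rw [Real.sq_sqrt (by positivity), mul_div_cancel₀ _ hε.ne']⟩
  have d0 : ∀ t, HasDerivAt (fun t : ℝ => t / T - 1) (1 / T) t := fun t =>
    ((hasDerivAt_id' t).div_const T).sub_const 1
  have d1 : ∀ t, HasDerivAt (fun t => a * cut (t / T - 1)) (a * (deriv cut (t / T - 1) * (1 / T))) t :=
    fun t => ((((Real.smoothTransition.contDiff (n := 1)).differentiable one_ne_zero
      _).hasDerivAt).comp t (d0 t)).const_mul a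
  have e1 : deriv (fun t => a * cut (t / T - 1)) =
      fun t => a * (deriv cut (t / T - 1) * (1 / T)) := funext fun t => (d1 t).deriv
  have d2 : ∀ t, HasDerivAt (fun t => a * (deriv cut (t / T - 1) * (1 / T)))
      (a * (deriv (deriv cut) (t / T - 1) * (1 / T) * (1 / T))) t := fun t =>
    ((((c1.differentiable (by simp) _).hasDerivAt).comp t (d0 t)).mul_const _).const_mul a
  have el : Real.exp (-(2 * a)) = lam⁻¹ := by
    rw [ha, mul_div_cancel₀ _ two_ne_zero, Real.exp_neg, Real.exp_log l0]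
  refine ⟨T, fun t => a * cut (t / T - 1), T0, B1.trans hT,
    contDiff_const.mul (Real.smoothTransition.contDiff.comp (by fun_prop)), fun t => ⟨fun h => ?_,
    fun h => ?_, ?_, ?_, ?_⟩⟩
  · simp only [cut]
    rw [Real.smoothTransition.zero_of_nonpos (sub_nonpos.2 ((div_le_one T0).2 h)), mul_zero]
  · simp only [cut]
    rw [Real.smoothTransition.one_of_one_le (by
      rw [le_sub_iff_add_le, le_div_iff₀ T0]; linarith), mul_one, el]
  · rw [← el]
    exact Real.exp_le_exp.2 (by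
      nlinarith [mul_le_mul_of_nonneg_left (Real.smoothTransition.le_one (t / T - 1)) a0])
  · exact Real.exp_le_one_iff.2 (by
      nlinarith [mul_nonneg a0 (Real.smoothTransition.nonneg (t / T - 1))])
  · rw [e1, (d2 t).deriv]
    have k1 : (a * deriv cut (t / T - 1)) ^ 2 ≤ (a * cc) ^ 2 := by
      rw [mul_pow, mul_pow]
      exact mul_le_mul_of_nonneg_left (sq_le_sq' (abs_le.1 (abs_deriv_cut_le _)).1
        (abs_le.1 (abs_deriv_cut_le _)).2) (sq_nonneg a)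
    have k2 : |a * deriv (deriv cut) (t / T - 1)| ≤ a * C := by
      rw [abs_mul, abs_of_nonneg a0]
      exact mul_le_mul_of_nonneg_left (hC _) a0
    have k3 : n * (a * deriv cut (t / T - 1)) ^ 2 ≤ |n| * (a * cc) ^ 2 :=
      (mul_le_mul_of_nonneg_right (le_abs_self n) (sq_nonneg _)).trans
        (mul_le_mul_of_nonneg_left k1 (abs_nonneg n))
    have k4 : n * (a * (deriv cut (t / T - 1) * (1 / T))) ^ 2
        + 2 * |a * (deriv (deriv cut) (t / T - 1) * (1 / T) * (1 / T))| =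
        (n * (a * deriv cut (t / T - 1)) ^ 2 + 2 * |a * deriv (deriv cut) (t / T - 1)|) / T ^ 2 := by
      rw [show a * (deriv (deriv cut) (t / T - 1) * (1 / T) * (1 / T)) =
        a * deriv (deriv cut) (t / T - 1) * (1 / T ^ 2) by ring, abs_mul (a * _),
        abs_of_pos (by positivity : 0 < 1 / T ^ 2)]
      ring
    rw [k4, div_le_iff₀ (by positivity)]
    linarith

/-- **the oracle `buf`** -/
theorem o2 [T2Space X] (hb : ∀ a, M.Sm (b a)) (tb : M.pre.Tan b) {θ : X → ℝ} (hθ : M.Sm θ)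
    {K : Set X} (hc : IsCompact K) (hK : ∀ p, 1 / 2 < θ p → p ∈ K) {Γm lam ε : ℝ} (hΓ : 0 ≤ Γm)
    (hl : 1 ≤ lam) (hε : 0 < ε) :
    ∃ (M' : Imm d (Option (ι × Fin 3)) X) (b' : Option (ι × Fin 3) → X → ℝ) (δ : ℝ)
      (w Ω : X → ℝ), M'.ch = M.ch ∧ (∀ A, M'.Sm (b' A)) ∧ M'.pre.Tan b' ∧ 0 < δ ∧
      (∀ p a, M'.x p (some (a, 0)) = δ * M.x p a) ∧ M.Sm w ∧ ∀ p,
      (θ p ≤ 1 / 2 → (∀ g k, M'.pre.gam g k p = M.pre.gam g k p) ∧
        M'.pre.Eb b' p = M.pre.Eb b p) ∧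
      (1 ≤ θ p → 4 ≤ w p) ∧ (θ p ≤ 1 / 2 → w p ≤ 0 ∧ Ω p = 1) ∧ lam⁻¹ ≤ Ω p ∧ Ω p ≤ 1 ∧
      (1 ≤ w p → Ω p = lam⁻¹) ∧ (∀ f, M.Sm f → M'.pre.gam f f p ≤ Ω p * M.pre.gam f f p) ∧
      M'.pre.gam w w p ≤ ε ∧
      (θ p ≤ 1 / 2 ∨ 1 ≤ θ p → Ω p * (M.pre.Eb b p - ε) ≤ M'.pre.Eb b' p) ∧
      ((1 / 2 ≤ θ p → θ p ≤ 1 → M.pre.gam θ θ p ≤ Γm) →
        Ω p * (M.pre.Eb b p - ε - N228.A.cb * Γm) ≤ M'.pre.Eb b' p) := by
  set ψ : X → ℝ := fun p => 2 * ct 4 (-5 / 2) (θ p) - 1 with hψ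
  have sθ : M.Sm fun p => 128 * θ p - 66 := ((Imm.sm_const _).mul hθ).sub (Imm.sm_const _)
  have D : BufD M (fun p => 128 * θ p - 66) ψ (fun p => ct 16 (-17 / 2) (θ p))
      fun p => ct 8 (-7) (θ p) := by
    refine ⟨sθ, ((Imm.sm_const _).mul (hθ.comp (contDiff_ct _ _))).sub
      (Imm.sm_const _), hθ.comp (contDiff_ct _ _), hθ.comp (contDiff_ct _ _),
      hc.of_isClosed_subset (isClosed_le continuous_const sθ.continuous) fun p hp =>
        hK p (by linarith [show 0 ≤ 128 * θ p - 66 from hp]), fun p => ⟨⟨?_, ?_⟩, ⟨ct_nonneg _ _ _, ct_le_one _ _ _⟩,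
        ct_nonneg _ _ _, ct_le_one _ _ _⟩, fun p hp => ?_, fun p hp => ?_, fun p hp => ?_⟩
    · simp only [hψ]; linarith [ct_nonneg 4 (-5 / 2) (θ p)]
    · simp only [hψ]; linarith [ct_le_one 4 (-5 / 2) (θ p)]
    · exact Or.inl ⟨by simp only [hψ]; rw [ct_zero (by linarith)]; ring, ct_zero (by linarith)⟩
    · have : 5 / 8 < θ p := not_le.1 fun h => hp (by
        simp only [hψ]; rw [ct_zero (by linarith)]; ring)
      exact (ev_gt hθ this).mono fun q hq => ct_one (by linarith)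
    · have : θ p < 7 / 8 := not_le.1 fun h => hp (by
        simp only [hψ]; rw [ct_one (by linarith)]; ring)
      exact (ev_lt hθ this).mono fun q hq => ct_zero (by linarith)
  obtain ⟨T, f, T0, T1, sf, hf⟩ := exists_expand d hl (show 0 < ε / 4 by positivity)
  have c0 : 0 < N228.A.cb * Γm + ε / 4 := by unfold N228.A.cb; positivity
  obtain ⟨v, G, sv, sG, H⟩ := D.buf hb (Real.sqrt_pos.2 c0) T0 (show 0 < ε / 4 by positivity)
  have sm : M.Sm fun p => ww M.pre v p * (hh M b v p - G p) := (sm_ww sv).mul ((sm_hb hb sv).sub sG)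
  obtain ⟨M', b', δ, S, δ0, hx⟩ := exists_step hb tb sv sm (R := 8 * T)
    (fun p => (H p).1) sf
  have sw : M.Sm fun p => v p / T - 1 :=
    (sv.div (Imm.sm_const _) fun _ => T0.ne').sub (Imm.sm_const _)
  have key : ∀ p r, 0 ≤ r → r ≤ 1 →
      Real.pi ^ 2 * M.pre.gam ψ ψ p ≤ (r * √(N228.A.cb * Γm + ε / 4)) ^ 2 →
      Real.exp (-(2 * f (v p))) * (M.pre.Eb b p - ε - r * (N228.A.cb * Γm)) ≤ M'.pre.Eb b' p := by
    intro p r r0 r1 h
    have k1 := (H p).2.2.2.2 r r0 r1 h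
    rw [Real.sq_sqrt c0.le, bgain] at k1
    refine le_trans (mul_le_mul_of_nonneg_left ?_ (Real.exp_pos _).le) (S.buf_le sv p)
    obtain ⟨x0, x1⟩ : 0 ≤ 1 - vv M.pre v p ^ 2 ∧ 1 - vv M.pre v p ^ 2 ≤ 1 :=
      ⟨(xi_mem M v p).1, by linarith [sq_nonneg (vv M.pre v p)]⟩
    have k2 := (hf (v p)).2.2.2.2
    have k3 : deriv (deriv f) (v p) * (1 - vv M.pre v p ^ 2) ≤ |deriv (deriv f) (v p)| :=
      (mul_le_mul_of_nonneg_right (le_abs_self _) x0).trans
        (mul_le_of_le_one_right (abs_nonneg _) x1)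
    nlinarith [mul_le_mul_of_nonneg_right r1 hε.le]
  have out : ∀ p, θ p < 5 / 8 ∨ 7 / 8 < θ p → M.pre.gam ψ ψ p = 0 := fun p hp => by
    rcases hp with hp | hp
    · exact gam_ev (s := -1) ((ev_lt hθ hp).mono fun q hq => by
        simp only [hψ]; rw [ct_zero (by linarith)]; ring) ψ
    · exact gam_ev (s := 1) ((ev_gt hθ hp).mono fun q hq => by
        simp only [hψ]; rw [ct_one (by linarith)]; ring) ψ
  refine ⟨M', b', δ, fun p => v p / T - 1, fun p => Real.exp (-(2 * f (v p))), S.ch, S.sm, S.tan, δ0,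
    hx, sw, fun p => ⟨fun h => ?_, fun h => ?_, fun h => ?_, (hf _).2.2.1, (hf _).2.2.2.1,
      fun h => (hf _).2.1 ?_, fun g hg => S.gam_le sv hg p, ?_, fun h => ?_, fun h => ?_⟩⟩
  · have e1 : ∀ᶠ q in 𝓝 p, v q = 0 := (ev_lt hθ (show θ p < 33 / 64 by linarith)).mono
      fun q hq => by
        rw [((H q).2.1 (by linarith)).1]
        simp only [hψ]; rw [ct_zero (by linarith)]; ring
    refine step_far S e1 ?_ ((hf 0).1 T0.le)
    have e2 : hh M b v p = 0 := (QQ_congr (M := M) (b := b) (w := fun _ => 0) e1).trans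
      (QQ_const M b 0 p)
    rw [e2, ((H p).2.1 (by linarith)).2, sub_zero, mul_zero]
  · have := (H p).2.2.2.1 (ct_one (by linarith))
    rw [le_sub_iff_add_le, le_div_iff₀ T0]
    linarith
  · have := (H p).2.2.1 (ct_zero (by linarith))
    exact ⟨sub_nonpos.2 ((div_le_one T0).2 this), by simp [(hf _).1 this]⟩
  · rw [le_sub_iff_add_le, le_div_iff₀ T0] at h
    linarith
  · have e1 : HasDerivAt (fun t : ℝ => t / T - 1) (1 / T) (v p) :=
      ((hasDerivAt_id' _).div_const T).sub_const 1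
    rw [gam_comp_self (S.sm_iff.2 sv) e1, S.gam, step_gam_vv sv]
    have k1 : Real.exp (-(2 * f (v p))) * (1 - vv M.pre v p ^ 2) ≤ 1 :=
      mul_le_one₀ (hf _).2.2.2.1 (xi_mem M v p).1 (by linarith [sq_nonneg (vv M.pre v p)])
    refine (mul_le_of_le_one_right (sq_nonneg _) k1).trans ?_
    rw [div_pow, div_le_iff₀ (by positivity)]
    nlinarith [sq_nonneg T]
  · simpa using key p 0 le_rfl zero_le_one (by
      rw [out p (h.imp (fun h => by linarith) fun h => by linarith)]; simp)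
  · have := key p 1 zero_le_one le_rfl (by
      rw [one_mul, Real.sq_sqrt c0.le]
      by_cases h' : θ p < 5 / 8 ∨ 7 / 8 < θ p
      · rw [out p h', mul_zero]; exact c0.le
      · push Not at h'
        obtain ⟨e, he, he'⟩ := hasDerivAt_ct 4 (-5 / 2) (θ p)
        rw [gam_comp_self hθ ((he.const_mul 2).sub_const 1)]
        have k1 := h (by linarith [h'.1]) (by linarith [h'.2])
        have k2 : (2 * e) ^ 2 ≤ (8 * cc) ^ 2 := by
          rw [abs_of_pos (by norm_num : (0 : ℝ) < 4)] at he'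
          exact sq_le_sq' (by linarith [(abs_le.1 he').1]) (by linarith [(abs_le.1 he').2])
        have k3 : Real.pi ^ 2 ≤ 16 := by nlinarith [Real.pi_lt_four, Real.pi_pos]
        have k4 := mul_le_mul k2 k1 (Imm.gam_self_nonneg _ _) (sq_nonneg _)
        have k5 := mul_le_mul k3 k4 (mul_nonneg (sq_nonneg _) (Imm.gam_self_nonneg _ _))
          (by norm_num)
        unfold N228.A.cb
        nlinarith [mul_nonneg (sq_nonneg cc) hΓ])
    rwa [one_mul] at this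

end Crest.Agent.N228.I

end
end

-- ▼ part N228/I/World

/-! # Row 228 (helper72): the geometric instance of `N228.A.Wd` -/

set_option autoImplicit false
set_option linter.unusedSectionVars false
open Set Filter Topology Function
open scoped ContDiff
open Crest.Agent.N222 Crest.Agent.N222.A Crest.Agent.N228.Cf

noncomputable section

namespace Crest.Agent.N228.I

variable {d : ℕ} {X : Type} [TopologicalSpace X]

/-- immersions with a drift, over a fixed atlas -/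
structure St (ch : X → OpenPartialHomeomorph X (E (Fin d))) : Type 1 where
  ι : Type
  [fi : Fintype ι]
  [de : DecidableEq ι]
  M : Imm d ι X
  b : ι → X → ℝ
  ch : M.ch = ch
  sm : ∀ a, M.Sm (b a)
  tan : M.pre.Tan b

attribute [instance] St.fi St.de

variable {ch : X → OpenPartialHomeomorph X (E (Fin d))}

/-- the curvature term minus the spectators -/
def St.ee (st : St ch) {J : Type} [Fintype J] (f0 : J → X → ℝ) (x : X) : ℝ :=
  st.M.pre.Eb st.b x - ∑ j, st.M.pre.gam (f0 j) (f0 j) x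

theorem St.ee_le {st st' : St ch} {J : Type} [Fintype J] {f0 : J → X → ℝ} (h0 : ∀ j, SmA ch (f0 j))
    {x : X} {k : ℝ} (h : ∀ f, st.M.Sm f → st'.M.pre.gam f f x ≤ k * st.M.pre.gam f f x) :
    st'.M.pre.Eb st'.b x - k * (st.M.pre.Eb st.b x - st.ee f0 x) ≤ st'.ee f0 x := by
  rw [St.ee, St.ee, sub_sub_cancel, Finset.mul_sum]
  exact sub_le_sub_left (Finset.sum_le_sum fun j _ => h _ ((alg_sm st.ch).1 (h0 j))) _

/-- **the instance**: nothing is lost on `5 ≤ om` -/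
def world [T2Space X] (ch : X → OpenPartialHomeomorph X (E (Fin d))) (L : Set X) {om : X → ℝ}
    (ho : SmA ch om) (hc : IsCompact {p | om p ≤ 5}) {J : Type} [Fintype J] {f0 : J → X → ℝ}
    (h0 : ∀ j, SmA ch (f0 j)) : A.Wd d where
  Z := X
  A := alg ch
  L := L
  om := om
  om_sm := ho
  St := St ch
  pt st := pt st.M st.ch
  pt_p _ _ := rfl
  E st := st.ee f0
  R st st' := Nx {p | 5 ≤ om p} st.M st.b st'.M st'.b
  R_refl st := Nx.refl _ _ _
  R_trans := Nx.trans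
  trace st x vs c _ _ h := trace_le st.M vs c x fun g hg => h g ((alg_sm st.ch).2 hg)
  pstep st Q σ a κ z s u0 ε hQ hσ ha hκ Q0 hz σ0 h1 hu hε h2 := by
    have sm := fun {f} => (alg_sm (f := f) st.ch).1
    obtain ⟨v, m, M', b', hs, hn, hv, H⟩ := o1 st.sm st.tan (sm ho) hc (sm hQ) (sm hσ) (sm ha) hκ Q0
      hz σ0 h1 hu hε
    refine ⟨v, ⟨_, M', b', hs.ch.trans st.ch, hs.sm, hs.tan⟩, hn, (alg_sm st.ch).2 hv,
      fun x => ⟨(H x).1, (H x).2.1⟩, fun x => (H x).2.2.1, fun x hx =>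
        ⟨fun f h hf hh => hs.gam_zg hv (sm hf) (sm hh) x, fun j j0 k1 k2 => le_trans ?_
          (St.ee_le h0 (st := st) (k := Real.exp (z * v x ^ 2 / 2)) fun f hf => ?_)⟩⟩
    · have := (H x).2.2.2 (h2 x hx) j j0 k1 k2
      simp only [pt]
      linarith
    · exact (hs.gam_le hv hf x).trans_eq (by rw [cq]; ring_nf)
  buf st θ Γm lam ε hθ hΓ hl hε h5 h1 := by
    have sm := fun {f} => (alg_sm (f := f) st.ch).1
    obtain ⟨M', b', δ, w, Ω, c1, c2, c3, δ0, hx, sw, H⟩ :=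
      o2 st.sm st.tan (sm hθ) hc (fun p hp => not_lt.1 fun h => hp.not_ge (h5 p (le_of_lt h))) hΓ hl hε
    refine ⟨w, Ω, ⟨_, M', b', c1.trans st.ch, c2, c3⟩, ⟨c1, fun hi p q e => hi (PiLp.ext fun a =>
      mul_left_cancel₀ δ0.ne' (by rw [← hx, ← hx, e])), fun p hp f g _ _ => ((H p).1 (h5 p hp)).1 f g,
      fun p hp => ((H p).1 (h5 p hp)).2.ge⟩, (alg_sm st.ch).2 sw, fun x hx => ?_⟩
    obtain ⟨-, a1, a2, a3, a4, a5, a6, a7, a8, a9⟩ := H x
    refine ⟨a1, fun h => (a2 h).1, a3, a4, a5, fun f hf => a6 f (sm hf), a7,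
      fun h => le_trans ?_ (St.ee_le h0 a6), le_trans ?_ (St.ee_le h0 a6)⟩
    · have := a8 (Or.inl h)
      rw [(a2 h).2] at this ⊢
      linarith
    · linarith [a9 (h1 x hx)]

end Crest.Agent.N228.I

end
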